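import Vale.Agent.P284.H894.SpecSub
import Vale.Agent.P272.K.Inv.Chart
import Vale.Agent.P272.KOD.Glue
import Vale.Agent.P268.Hol

/-! # P284 (helper894), B1: glueing holomorphic functions on the pieces by a partition of unity. -/

open scoped Manifold ContDiff Topology ComplexConjugate ComplexOrder
open Filter Set Metric

noncomputable section

namespace Vale.Agent.P284.H894

open Vale.Agent.P272.K Vale.Agent.P284.H248 Vale.Agent.P272.KOD

variable {n : ℕ} {Γ : Type} [Group Γ]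

namespace Coc
variable (C : Coc n Γ)

lemma isOpen_Ω (a : C.I) : IsOpen (C.Ω a) := isOpen_ball
lemma isOpen_V (a : C.I) : IsOpen (C.V a) := isOpen_ball
lemma isOpen_W (a : C.I) : IsOpen (C.W a) := isOpen_ball

lemma V_sub (a : C.I) : C.V a ⊆ C.Ω a := ball_subset_ball (by linarith [C.r_pos a])
lemma W_sub (a : C.I) : C.W a ⊆ C.V a := ball_subset_ball (by linarith [C.r_pos a])
lemma cV_sub (a : C.I) : closedBall (C.c a) (3 * C.r a) ⊆ C.Ω a :=
  closedBall_subset_ball (by linarith [C.r_pos a])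

lemma O_Ω {a b : C.I} {z : Cm n} (h : z ∈ C.O a b) : z ∈ C.Ω a := C.O_sub a b h

lemma T_Ω {a b : C.I} {z : Cm n} (h : z ∈ C.O a b) : C.T a b z ∈ C.Ω b := C.O_Ω (C.T_mem a b z h)

lemma T_inv {a b : C.I} {z : Cm n} (h : z ∈ C.O a b) : C.T b a (C.T a b z) = z := by
  have h1 := C.T_mem a b z h
  have h2 := C.trans_mem a b a z h h1
  rw [← C.trans_T a b a z h h1, C.T_self a z h2]

/-- `z` in the triple overlap -/
lemma O_trans {a b d : C.I} {z : Cm n} (h : z ∈ C.O a d) (hb : z ∈ C.O a b) :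
    C.T a d z ∈ C.O d b := by
  refine C.trans_mem d a b _ (C.T_mem a d z h) ?_
  rw [C.T_inv h]; exact hb

lemma T_smooth {a b : C.I} {z : Cm n} (h : z ∈ C.O a b) : ContDiffAt ℝ ∞ (C.T a b) z := by
  have h1 := Vale.Agent.P268.analyticAt_of_differentiableOn (C.O_open a b) (C.T_holo a b) h
  exact (h1.contDiffAt (n := ∞)).restrict_scalars ℝ

lemma g_smooth {a b : C.I} {z : Cm n} (h : z ∈ C.O a b) : ContDiffAt ℝ ∞ (C.g a b) z := by
  have h1 := Vale.Agent.P268.analyticAt_of_differentiableOn (C.O_open a b) (C.g_holo a b) h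
  exact (h1.contDiffAt (n := ∞)).restrict_scalars ℝ

end Coc

section
variable {C : Coc n Γ} (P : PU C)

/-- the set of the points of the ball `a` at which the function number `b` may be nonzero -/
def PU.D (a b : C.I) : Set (Cm n) := {z | z ∈ C.O a b ∧ C.T a b z ∈ P.K b}

variable {P}

lemma PU.χ_zero {a b : C.I} {z : Cm n} (hz : z ∈ C.Ω a) (h : z ∉ P.D a b) : P.χ b a z = 0 := by
  by_contra h0
  exact h (P.supp b a z hz h0)

lemma PU.χ_ev_zero {a b : C.I} {z : Cm n} (hz : z ∈ C.Ω a) (h : z ∉ P.D a b) :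
    ∀ᶠ z' in 𝓝 z, P.χ b a z' = 0 := by
  have h1 := C.closed a b (P.K b) (P.compactK b)
    ((P.K_sub b).trans (C.V_sub b)) z hz h
  filter_upwards [h1, (C.isOpen_Ω a).mem_nhds hz] with z' h2 h3
  exact PU.χ_zero h3 h2

/-- the coefficients of the glued section -/
def glF (m : ℕ) (P : PU C) (G : Γ → C.I → Cm n → ℂ) (γ : Γ) (a : C.I) (z : Cm n) : ℂ :=
  ∑ b, (P.χ b a z : ℂ) * (C.g a b z ^ m * G (γ * C.κ a b z) b (C.T a b z))

/-- locally, `κ` is constant -/
lemma term_ev (m : ℕ) (G : Γ → C.I → Cm n → ℂ) (γ : Γ) {a b : C.I} {z : Cm n}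
    (h : z ∈ C.O a b) :
    (fun z' => C.g a b z' ^ m * G (γ * C.κ a b z') b (C.T a b z')) =ᶠ[𝓝 z]
      fun z' => C.g a b z' ^ m * G (γ * C.κ a b z) b (C.T a b z') := by
  filter_upwards [C.κ_loc a b z h] with z' hz'
  rw [hz']

lemma term_holo' {m : ℕ} {G : Γ → C.I → Cm n → ℂ}
    (hG : ∀ γ a, DifferentiableOn ℂ (G γ a) (C.V a)) (γ : Γ) {a b : C.I} {z : Cm n}
    (h : z ∈ C.O a b) (h' : C.T a b z ∈ C.V b) :
    DifferentiableAt ℂ (fun z' => C.g a b z' ^ m * G (γ * C.κ a b z') b (C.T a b z')) z := by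
  refine (Filter.EventuallyEq.differentiableAt_iff (term_ev m G γ h)).2 ?_
  have h1 : DifferentiableAt ℂ (C.T a b) z := (C.T_holo a b).differentiableAt
    ((C.O_open a b).mem_nhds h)
  have h2 : DifferentiableAt ℂ (C.g a b) z := (C.g_holo a b).differentiableAt
    ((C.O_open a b).mem_nhds h)
  have h3 : DifferentiableAt ℂ (G (γ * C.κ a b z) b) (C.T a b z) :=
    (hG _ b).differentiableAt ((C.isOpen_V b).mem_nhds h')
  exact (h2.pow m).mul (h3.comp z h1)

lemma term_smooth' {m : ℕ} {G : Γ → C.I → Cm n → ℂ}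
    (hG : ∀ γ a, DifferentiableOn ℂ (G γ a) (C.V a)) (γ : Γ) {a b : C.I} {z : Cm n}
    (h : z ∈ C.O a b) (h' : C.T a b z ∈ C.V b) :
    ContDiffAt ℝ ∞ (fun z' => C.g a b z' ^ m * G (γ * C.κ a b z') b (C.T a b z')) z := by
  refine ContDiffAt.congr_of_eventuallyEq ?_ (term_ev m G γ h)
  have h3 : ContDiffAt ℝ ∞ (G (γ * C.κ a b z) b) (C.T a b z) :=
    contDiffAt_of_holo (C.isOpen_V b) (hG _ b) h'
  exact ((C.g_smooth h).pow m).mul (h3.comp z (C.T_smooth h))

lemma χ_smooth_c' (b : C.I) {a : C.I} {z : Cm n} (hz : z ∈ C.Ω a) :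
    ContDiffAt ℝ ∞ (fun z' => (P.χ b a z' : ℂ)) z :=
  Complex.ofRealCLM.contDiff.contDiffAt.comp z (P.smooth b a z hz)

lemma PU.D_V {a b : C.I} {z : Cm n} (h : z ∈ P.D a b) : C.T a b z ∈ C.V b := P.K_sub b h.2

/-- The glued section. -/
def glSS (m : ℕ) (P : PU C) (G : Γ → C.I → Cm n → ℂ)
    (hG : ∀ γ a, DifferentiableOn ℂ (G γ a) (C.V a)) : SS C m where
  F := glF m P G
  smooth γ a z hz := by
    unfold glF
    refine ContDiffAt.sum fun b _ => ?_
    by_cases h : z ∈ P.D a b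
    · exact (χ_smooth_c' b hz).mul (term_smooth' hG γ h.1 (PU.D_V h))
    · refine (contDiffAt_const (c := (0 : ℂ))).congr_of_eventuallyEq ?_
      filter_upwards [PU.χ_ev_zero hz h] with z' hz'
      rw [hz']; simp
  change γ a d z hz := by
    unfold glF
    rw [Finset.mul_sum]
    refine Finset.sum_congr rfl fun b _ => ?_
    rw [← P.compat b a d z hz]
    by_cases h : z ∈ P.D a b
    · have h1 := C.O_trans hz h.1
      rw [C.trans_g a d b z hz h1, C.trans_κ a d b z hz h1, C.trans_T a d b z hz h1, mul_pow,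
        mul_assoc γ]
      ring
    · rw [PU.χ_zero (C.O_Ω hz) h]; simp

/-- the difference with a given section -/
lemma glF_sub (m : ℕ) (G : Γ → C.I → Cm n → ℂ) (γ : Γ) {a : C.I} {z : Cm n} (hz : z ∈ C.Ω a)
    (s : ℂ) : glF m P G γ a z - s =
      ∑ b, (P.χ b a z : ℂ) * (C.g a b z ^ m * G (γ * C.κ a b z) b (C.T a b z) - s) := by
  unfold glF
  have h1 : (∑ b, (P.χ b a z : ℂ)) = 1 := by exact_mod_cast P.sum_one a z hz
  simp only [mul_sub, Finset.sum_sub_distrib, ← Finset.sum_mul, h1, one_mul]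

/-- the `∂̄`-derivative of the glued section -/
lemma dzb_glF {m : ℕ} {G : Γ → C.I → Cm n → ℂ}
    (hG : ∀ γ a, DifferentiableOn ℂ (G γ a) (C.V a)) (γ : Γ) {a : C.I} {z : Cm n}
    (hz : z ∈ C.Ω a) (s : ℂ) (l : Fin n) : dzb l (glF m P G γ a) z =
      ∑ b, dzb l (fun z' => (P.χ b a z' : ℂ)) z *
        (C.g a b z ^ m * G (γ * C.κ a b z) b (C.T a b z) - s) := by
  have hdχ : ∀ b, DifferentiableAt ℝ (fun z' => (P.χ b a z' : ℂ)) z := fun b =>
    (χ_smooth_c' b hz).differentiableAt (by simp)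
  have h0 : ∀ b, z ∉ P.D a b → dzb l (fun z' => (P.χ b a z' : ℂ)) z = 0 := by
    intro b h
    rw [dzb_congr (g := fun _ => (0 : ℂ)), dzb_const]
    filter_upwards [PU.χ_ev_zero hz h] with z' hz'
    rw [hz']; simp
  have hterm : ∀ b, DifferentiableAt ℝ (fun z' => (P.χ b a z' : ℂ) *
      (C.g a b z' ^ m * G (γ * C.κ a b z') b (C.T a b z'))) z ∧
      dzb l (fun z' => (P.χ b a z' : ℂ) *
        (C.g a b z' ^ m * G (γ * C.κ a b z') b (C.T a b z'))) z =
      dzb l (fun z' => (P.χ b a z' : ℂ)) z *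
        (C.g a b z ^ m * G (γ * C.κ a b z) b (C.T a b z)) := by
    intro b
    by_cases h : z ∈ P.D a b
    · have hd := term_holo' (m := m) hG γ h.1 (PU.D_V h)
      have hdR := hd.restrictScalars ℝ
      refine ⟨(hdχ b).mul hdR, ?_⟩
      rw [dzb_mul (hdχ b) hdR, dzb_of_holo hd]
      ring
    · have hev : (fun z' => (P.χ b a z' : ℂ) *
          (C.g a b z' ^ m * G (γ * C.κ a b z') b (C.T a b z'))) =ᶠ[𝓝 z]
          fun _ => (0 : ℂ) := by
        filter_upwards [PU.χ_ev_zero hz h] with z' hz'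
        rw [hz']; simp
      refine ⟨(differentiableAt_const (0 : ℂ)).congr_of_eventuallyEq hev, ?_⟩
      rw [dzb_congr hev, dzb_const, h0 b h, zero_mul]
  have h1 : dzb l (glF m P G γ a) z = ∑ b, dzb l (fun z' => (P.χ b a z' : ℂ)) z *
        (C.g a b z ^ m * G (γ * C.κ a b z) b (C.T a b z)) := by
    unfold glF
    rw [dzb_sum _ (fun b _ => (hterm b).1)]
    exact Finset.sum_congr rfl fun b _ => (hterm b).2
  have h2 : (∑ b, dzb l (fun z' => (P.χ b a z' : ℂ)) z) = 0 := by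
    rw [← dzb_sum Finset.univ (fun b _ => hdχ b)]
    have h3 : (fun z' => ∑ b, (P.χ b a z' : ℂ)) =ᶠ[𝓝 z] fun _ => (1 : ℂ) := by
      filter_upwards [(C.isOpen_Ω a).mem_nhds hz] with z' hz'
      exact_mod_cast P.sum_one a z' hz'
    rw [dzb_congr h3, dzb_const]
  rw [h1]
  simp only [mul_sub, Finset.sum_sub_distrib, ← Finset.sum_mul, h2, zero_mul, sub_zero]

end

end Vale.Agent.P284.H894
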