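import Vale.Agent.P284.H894.SpecSub

/-!
# P284 (helper894, helper468): second version, simpler and stronger (idea of helper468)

On the quotient `M = (D × D) / Γ` of the product of the covering with itself the diagonal is COMPACT, so
finitely many linear conditions on sections of `L^m ⊠ L^m` over `M` give vanishing to high order along
it. No kernel lemma (C) and no Poincaré series (E) is needed and the twist `w` is fixed:

THEOREM. `π₁(X)` infinite, `L` positive ⟹ there is `w ≥ 1` such that `S^d Ω¹_X ⊗ L^w` has a nonzero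
holomorphic section for infinitely many `d`.

FROZEN.
-/

open scoped Manifold ContDiff Topology ComplexConjugate ComplexOrder
open Filter Set Metric

noncomputable section

namespace Vale.Agent.P284.H894

open Vale.Agent.P272.K Vale.Agent.P284.H248

/-- The theorem, strong form. -/
def Main2Stmt : Prop :=
  ∀ (n : ℕ) (X : Type) [TopologicalSpace X] [T2Space X] [CompactSpace X] [ConnectedSpace X]
    [ChartedSpace (Cm n) X] [IsManifold 𝓘(ℂ, Cm n) ω X] (L : LineBundle n X), Positive L →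
    ∀ x : X, Infinite (FundamentalGroup X x) →
    ∃ w : ℕ, 1 ≤ w ∧ ∀ N : ℕ, ∃ d : ℕ, N ≤ d ∧ ∃ s : SymSec L d w, s.Nonzero

/-- **D'**: the leading term along the compact diagonal of `(D × D) / Γ`. -/
def D'Stmt : Prop :=
  ∀ (n : ℕ) (Γ : Type) [Group Γ] [Infinite Γ] (C : Coc n Γ) (m : ℕ) (s : HS C m) (ρ : Γ → ℝ),
    s.Small ρ → s.Peaked → ∀ N : ℕ, ∃ q : ℕ, N ≤ q ∧ ∃ τ : XF C q (2 * m), τ.Nonzero

/-- **D1'**: the section `Σ_h Σ_g c(g) (h s) ⊗ (h g s)`, invariant under the diagonal action of `Γ`. -/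
def D1'Stmt : Prop :=
  ∀ (n : ℕ) (Γ : Type) [Group Γ] (C : Coc n Γ) (m : ℕ) (s : HS C m) (ρ : Γ → ℝ),
    s.Small ρ → s.Peaked → ∀ (S : Finset Γ) (c : Γ → ℂ), (∀ g, g ∉ S → c g = 0) →
    (∃ g, c g ≠ 0) →
    ∃ σ : Γ → C.I → Γ → C.I → Cm n → Cm n → ℂ,
      (∀ γ a γ' b, DifferentiableOn ℂ (fun p : Cm n × Cm n => σ γ a γ' b p.1 p.2)
        (C.V a ×ˢ C.V b)) ∧
      (∀ δ γ a γ' b z w, z ∈ C.V a → w ∈ C.V b →
        σ (δ * γ) a (δ * γ') b z w = σ γ a γ' b z w) ∧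
      (∀ γ a d γ' b z w, z ∈ C.O a d → z ∈ C.V a → C.T a d z ∈ C.V d → w ∈ C.V b →
        σ γ a γ' b z w = C.g a d z ^ m * σ (γ * C.κ a d z) d γ' b (C.T a d z) w) ∧
      (∀ γ a γ' b d z w, w ∈ C.O b d → w ∈ C.V b → C.T b d w ∈ C.V d → z ∈ C.V a →
        σ γ a γ' b z w = C.g b d w ^ m * σ γ a (γ' * C.κ b d w) d z (C.T b d w)) ∧
      (∃ γ a γ' b, ∃ z ∈ C.V a, ∃ w ∈ C.V b, σ γ a γ' b z w ≠ 0) ∧
      (∃ R : ℝ, ∀ γ a, ∀ z ∈ C.V a, ∀ w ∈ C.V a, ‖σ γ a γ a z w‖ ≤ R) ∧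
      (∀ γ a k, ∀ z ∈ C.V a, ∀ v : Cm n,
        iteratedDeriv k (fun t : ℂ => σ γ a γ a z (z + t • v)) 0 =
          ∑ g ∈ S, c g * ∑' u : Γ, s.F u a z *
            iteratedDeriv k (fun t : ℂ => s.F (g⁻¹ * u) a (z + t • v)) 0)

/-- **D3'**: assembly: linear algebra (more unknowns `c g` than conditions), finite nets, contraction,
connectedness. -/
def D3'Stmt : Prop := D0Stmt → D1'Stmt → D'Stmt

/-- The assembly. -/
theorem main2_of (hA : AStmt) (hB : BStmt) (hD : D'Stmt) : Main2Stmt := by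
  intro n X _ _ _ _ _ _ L hL x hx
  obtain ⟨Γ, _, C, hΓ, ⟨P⟩, ⟨w⟩, hret⟩ := hA n X L hL x hx
  obtain ⟨m, hm, s, ρ, hs, hp⟩ := hB n Γ C P w
  refine ⟨2 * m, by omega, fun N => ?_⟩
  obtain ⟨q, hq, τ, hτ⟩ := hD n Γ C m s ρ hs hp N
  exact ⟨q, hq, hret _ _ τ hτ⟩

/-- The strong form implies pseudo-effectivity. -/
theorem main_of_main2 (h : Main2Stmt) : MainStmt := by
  intro n X _ _ _ _ _ _ L hL x hx N
  obtain ⟨w, hw, h1⟩ := h n X L hL x hx
  obtain ⟨d, hd, s, hs⟩ := h1 (N * w)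
  exact ⟨d, w, hw, hd, s, hs⟩

end Vale.Agent.P284.H894
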