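import Vale.Agent.P284.H894.B1Step
import Vale.Agent.P272.KOD.Loc

/-! # P284 (helper894), B1: one averaging step. -/

open scoped Manifold ContDiff Topology ComplexConjugate ComplexOrder ENNReal
open Filter Set Metric MeasureTheory

noncomputable section

namespace Vale.Agent.P284.H894

open Vale.Agent.P272.K Vale.Agent.P284.H248 Vale.Agent.P272.KOD

/-- **B1** -/
theorem b1Stmt : B1Stmt := by
  intro n Γ _ C P w
  obtain ⟨B, hB, hstep⟩ := step_glue' P w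
  have hlam := w.lam_pos
  refine ⟨2 / w.lam + B * (2 / w.lam), by positivity, fun m hm σ A hA hd => ?_⟩
  have hm0 : (0 : ℝ) < m := by exact_mod_cast hm
  have hφ2 : ∀ a, ∀ z ∈ closedBall (C.c a) (3 * C.r a), ContDiffAt ℝ 2 (w.φ a) z := by
    intro a z hz
    exact (w.smooth a z (C.cV_sub a hz)).of_le (by norm_cast)
  have hs2 : ∀ γ a, ∀ z ∈ closedBall (C.c a) (3 * C.r a), ContDiffAt ℝ 2 (σ.F γ a) z := by
    intro γ a z hz
    exact (σ.smooth γ a z (C.cV_sub a hz)).of_le (by norm_cast)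
  have hex : ∀ γ a, ∃ G : Cm n → ℂ, DifferentiableOn ℂ G (C.V a) ∧
      nrm n m (w.φ a) (C.V a) (fun z => G z - σ.F γ a z) ≤
        ENNReal.ofReal (2 / ((m : ℝ) * w.lam) * A γ) := fun γ a =>
    loc_nrm (by linarith [C.r_pos a] : 0 < 3 * C.r a) (hφ2 a) hlam (w.pos a) hm (hs2 γ a) (hA γ)
      (hd γ a)
  choose G hG hn using hex
  have hA' : ∀ γ, 0 ≤ 2 / ((m : ℝ) * w.lam) * A γ := fun γ => mul_nonneg (by positivity) (hA γ)
  obtain ⟨h1, h2⟩ := hstep m σ G hG _ hA' hn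
  have hS : ∀ γ, 0 ≤ ∑ k ∈ C.N, A (γ * k) := fun γ => Finset.sum_nonneg fun k _ => hA _
  have e1 : ∀ γ, 2 / ((m : ℝ) * w.lam) * A γ ≤ (2 / w.lam + B * (2 / w.lam)) / m * A γ := by
    intro γ
    have : (2 / w.lam + B * (2 / w.lam)) / m * A γ =
        2 / ((m : ℝ) * w.lam) * A γ + B * (2 / ((m : ℝ) * w.lam) * A γ) := by
      field_simp
    rw [this]
    have : 0 ≤ B * (2 / ((m : ℝ) * w.lam) * A γ) := mul_nonneg hB (hA' γ)
    linarith
  have e2 : ∀ γ, B * ∑ k ∈ C.N, 2 / ((m : ℝ) * w.lam) * A (γ * k) ≤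
      (2 / w.lam + B * (2 / w.lam)) / m * ∑ k ∈ C.N, A (γ * k) := by
    intro γ
    rw [← Finset.mul_sum]
    have : (2 / w.lam + B * (2 / w.lam)) / m * ∑ k ∈ C.N, A (γ * k) =
        2 / ((m : ℝ) * w.lam) * ∑ k ∈ C.N, A (γ * k) +
          B * (2 / ((m : ℝ) * w.lam) * ∑ k ∈ C.N, A (γ * k)) := by
      field_simp
    rw [this]
    have : 0 ≤ 2 / ((m : ℝ) * w.lam) * ∑ k ∈ C.N, A (γ * k) := mul_nonneg (by positivity) (hS γ)
    linarith
  exact ⟨G, glSS m P G hG, hG, fun γ a => (hn γ a).trans (ENNReal.ofReal_le_ofReal (e1 γ)),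
    fun γ a => (h1 γ a).trans (ENNReal.ofReal_le_ofReal (e2 γ)),
    fun γ a => (h2 γ a).trans (ENNReal.ofReal_le_ofReal (e2 γ))⟩

end Vale.Agent.P284.H894
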