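import Vale.Agent.P284.H894.SpecSub
import Vale.Agent.P272.KOD.Lim

/-! P284 (helper894): block B2 : the limit of the iteration. -/

open scoped Manifold ContDiff ENNReal NNReal
open MeasureTheory Filter Topology Metric Set

noncomputable section

namespace Vale.Agent.P284.H894.B2x

open Vale.Agent.P272.K Vale.Agent.P284.H248 Vale.Agent.P272.KOD Vale.Agent.P272.KOD.Lim
  Vale.Agent.P284.H894

variable {n : ℕ} {Γ : Type} [Group Γ] (C : Coc n Γ)

lemma isOpen_V (a : C.I) : IsOpen (C.V a) := isOpen_ball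

lemma V_sub_Ω (a : C.I) : C.V a ⊆ C.Ω a := ball_subset_ball (by linarith [C.r_pos a])

lemma T_diffAt {a b : C.I} {z : Cm n} (hz : z ∈ C.O a b) : DifferentiableAt ℂ (C.T a b) z :=
  (C.T_holo a b).differentiableAt ((C.O_open a b).mem_nhds hz)

lemma g_diffAt {a b : C.I} {z : Cm n} (hz : z ∈ C.O a b) : DifferentiableAt ℂ (C.g a b) z :=
  (C.g_holo a b).differentiableAt ((C.O_open a b).mem_nhds hz)

/-- the overlap of the middle balls, where `κ` has a given value -/
def ov (a b : C.I) (κ₀ : Γ) : Set (Cm n) :=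
  {z | z ∈ C.O a b ∧ z ∈ C.V a ∧ C.T a b z ∈ C.V b ∧ C.κ a b z = κ₀}

lemma isOpen_ov (a b : C.I) (κ₀ : Γ) : IsOpen (ov C a b κ₀) := by
  rw [isOpen_iff_mem_nhds]
  rintro z ⟨h1, h2, h3, h4⟩
  have c1 := (C.O_open a b).mem_nhds h1
  have c2 := (isOpen_V C a).mem_nhds h2
  have c3 := (T_diffAt C h1).continuousAt.preimage_mem_nhds ((isOpen_V C b).mem_nhds h3)
  have c4 := C.κ_loc a b z h1
  filter_upwards [c1, c2, c3, c4] with w w1 w2 w3 w4
  exact ⟨w1, w2, w3, by rw [w4, h4]⟩

lemma T_T {a b : C.I} {z : Cm n} (hz : z ∈ C.O a b) : C.T b a (C.T a b z) = z := by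
  have h1 := C.T_mem a b z hz
  have h2 := C.trans_T a b a z hz h1
  have h3 : z ∈ C.O a a := C.trans_mem a b a z hz h1
  rw [← h2, C.T_self a z h3]

/-- Null sets are preserved by coordinate changes. -/
lemma ae_trans (a b : C.I) {P : Cm n → Prop}
    (h : ∀ᵐ w ∂(volume : Measure (Cm n)), w ∈ C.V b → P w) :
    ∀ᵐ z ∂(volume : Measure (Cm n)), z ∈ C.O a b → C.T a b z ∈ C.V b → P (C.T a b z) := by
  set S : Set (Cm n) := {w | (w ∈ C.O b a ∧ w ∈ C.V b) ∧ ¬ P w} with hS
  have hS0 : volume S = 0 := by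
    rw [ae_iff] at h
    refine measure_mono_null ?_ h
    rintro w ⟨hw, hP⟩
    exact fun hh => hP (hh hw.2)
  have h1 : volume (C.T b a '' S) = 0 := by
    refine addHaar_image_eq_zero_of_differentiableOn_of_addHaar_eq_zero volume ?_ hS0
    refine DifferentiableOn.mono (t := C.O b a) ?_ fun w hw => hw.1.1
    exact (C.T_holo b a).restrictScalars ℝ
  rw [ae_iff]
  refine measure_mono_null ?_ h1
  intro z hz
  simp only [Set.mem_ofPred_eq, Classical.not_imp] at hz
  obtain ⟨hz1, hz2, hP⟩ := hz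
  exact ⟨C.T a b z, ⟨⟨C.T_mem a b z hz1, hz2⟩, hP⟩, T_T C hz1⟩

theorem b2 : B2Stmt := by
  intro n Γ _ C w m σ G hG A q hA hq0 hq h1 h2
  set q' : ℝ := Real.sqrt q with hq'
  have hq'0 : 0 ≤ q' := Real.sqrt_nonneg _
  have hq'1 : q' < 1 := by
    rw [hq', Real.sqrt_lt' one_pos]
    simpa using hq
  have hq1 : 0 < 1 - q' := by linarith
  have hφc : ∀ a, ContinuousOn (w.φ a) (C.Ω a) := fun a z hz =>
    (w.smooth a z hz).continuousAt.continuousWithinAt
  set ψ : C.I → Cm n → ℝ := fun a z => (m : ℝ) * w.φ a z with hψ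
  have hψc : ∀ a, ContinuousOn (ψ a) (C.V a) := fun a =>
    continuousOn_const.mul ((hφc a).mono (V_sub_Ω C a))
  have hψB : ∀ a, ∃ B : ℝ, ∀ z ∈ C.V a, ψ a z ≤ B := by
    intro a
    have hK : IsCompact (closedBall (C.c a) (3 * C.r a)) := isCompact_closedBall _ _
    have hs : closedBall (C.c a) (3 * C.r a) ⊆ C.Ω a :=
      closedBall_subset_ball (by linarith [C.r_pos a])
    obtain ⟨B, hB⟩ := hK.bddAbove_image ((hφc a).mono hs)
    exact ⟨m * B, fun z hz => mul_le_mul_of_nonneg_left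
      (hB ⟨z, ball_subset_closedBall hz, rfl⟩) (Nat.cast_nonneg m)⟩
  have hσc : ∀ k γ a, ContinuousOn ((σ k).F γ a) (C.V a) := fun k γ a z hz =>
    ((σ k).smooth γ a z (V_sub_Ω C a hz)).continuousAt.continuousWithinAt
  have hsqrt : ∀ γ (k : ℕ), Real.sqrt (A γ * q ^ k) = Real.sqrt (A γ) * q' ^ k := by
    intro γ k
    have h3 : q ^ k = (Real.sqrt q ^ k) ^ 2 := by
      rw [← pow_mul, mul_comm k 2, pow_mul, Real.sq_sqrt hq0]
    rw [Real.sqrt_mul (hA γ), hq', h3, Real.sqrt_sq (by positivity)]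
  have k1 : ∀ k γ a, wn (C.V a) (ψ a) (fun z => G k γ a z - (σ k).F γ a z) ≤
      ENNReal.ofReal (Real.sqrt (A γ) * q' ^ k) := by
    intro k γ a
    rw [← hsqrt γ k]
    exact wn_le_of_nrm (mul_nonneg (hA γ) (by positivity)) (h1 k γ a)
  have k2 : ∀ k γ a, wn (C.V a) (ψ a) (fun z => (σ (k + 1)).F γ a z - (σ k).F γ a z) ≤
      ENNReal.ofReal (Real.sqrt (A γ) * q' ^ k) := by
    intro k γ a
    rw [← hsqrt γ k]
    exact wn_le_of_nrm (mul_nonneg (hA γ) (by positivity)) (h2 k γ a)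
  -- the differences of the local approximations
  have h3 : ∀ k γ a, wn (C.V a) (ψ a) (fun z => G (k + 1) γ a z - G k γ a z) ≤
      ENNReal.ofReal (3 * Real.sqrt (A γ) * q' ^ k) := by
    intro k γ a
    have e1 : (fun z => G (k + 1) γ a z - G k γ a z) =
        fun z => (G (k + 1) γ a z - (σ (k + 1)).F γ a z) +
        (((σ (k + 1)).F γ a z - (σ k).F γ a z) + ((σ k).F γ a z - G k γ a z)) := by
      funext z
      ring
    rw [e1]
    have c1 := (hG (k + 1) γ a).continuousOn.sub (hσc (k + 1) γ a)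
    have c2 := (hσc (k + 1) γ a).sub (hσc k γ a)
    have c3 := (hσc k γ a).sub (hG k γ a).continuousOn
    refine (wn_add_le (isOpen_V C a) (hψc a) c1 (c2.add c3)).trans ?_
    have h4 : wn (C.V a) (ψ a) (fun z => G (k + 1) γ a z - (σ (k + 1)).F γ a z) ≤
        ENNReal.ofReal (Real.sqrt (A γ) * q' ^ k) := by
      refine (k1 (k + 1) γ a).trans (ENNReal.ofReal_le_ofReal ?_)
      refine mul_le_mul_of_nonneg_left ?_ (Real.sqrt_nonneg _)
      exact pow_le_pow_of_le_one hq'0 hq'1.le (Nat.le_succ k)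
    have h5 : wn (C.V a) (ψ a) (fun z => (σ k).F γ a z - G k γ a z) ≤
        ENNReal.ofReal (Real.sqrt (A γ) * q' ^ k) := by
      rw [wn_sub_comm]
      exact k1 k γ a
    have h6 := wn_add_le (isOpen_V C a) (hψc a) c2 c3
    refine (add_le_add h4 (h6.trans (add_le_add (k2 k γ a) h5))).trans (le_of_eq ?_)
    have h0 : 0 ≤ Real.sqrt (A γ) * q' ^ k := by positivity
    rw [← ENNReal.ofReal_add h0 h0, ← ENNReal.ofReal_add h0 (by positivity)]
    congr 1
    ring
  have h4 : ∀ γ a, ∃ S : Cm n → ℂ, DifferentiableOn ℂ S (C.V a) ∧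
      ∀ z ∈ C.V a, Tendsto (fun k => G k γ a z) atTop (𝓝 (S z)) := fun γ a =>
    local_limit (isOpen_V C a) (hψB a) (fun k => hG k γ a) (by positivity) hq'0 hq'1
      (fun k => h3 k γ a)
  choose S hS hSl using h4
  have hae : ∀ γ a, ∀ᵐ z ∂(volume : Measure (Cm n)), z ∈ C.V a →
      Tendsto (fun k => (σ k).F γ a z) atTop (𝓝 (S γ a z)) := by
    intro γ a
    have h5 := ae_tendsto (isOpen_V C a) (hψc a)
      (fun k => (hG k γ a).continuousOn.sub (hσc k γ a)) hq'0 hq'1 (fun k => k1 k γ a)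
    filter_upwards [h5] with z hz hzV
    have h6 := (hSl γ a z hzV).sub (hz hzV)
    rw [sub_zero] at h6
    refine h6.congr fun k => ?_
    simp only [Pi.sub_apply]
    ring
  have hchange : ∀ γ a b z, z ∈ C.O a b → z ∈ C.V a → C.T a b z ∈ C.V b →
      S γ a z = C.g a b z ^ m * S (γ * C.κ a b z) b (C.T a b z) := by
    intro γ a b z0 hz1 hz2 hz3
    have hO := isOpen_ov C a b (C.κ a b z0)
    have hsubO : ov C a b (C.κ a b z0) ⊆ C.O a b := fun z hz => hz.1
    have e1 := ae_trans C a b (hae (γ * C.κ a b z0) b)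
    have e2 : EqOn (S γ a) (fun z => C.g a b z ^ m * S (γ * C.κ a b z0) b (C.T a b z))
        (ov C a b (C.κ a b z0)) := by
      refine Measure.eqOn_open_of_ae_eq (μ := volume) ?_ hO
        ((hS γ a).continuousOn.mono fun z hz => hz.2.1) ?_
      · rw [EventuallyEq, ae_restrict_iff' hO.measurableSet]
        filter_upwards [hae γ a, e1] with z f1 f2 hz
        have f3 := f1 hz.2.1
        have f4 := (f2 hz.1 hz.2.2.1).const_mul (C.g a b z ^ m)
        refine tendsto_nhds_unique f3 (f4.congr fun k => ?_)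
        have f5 := (σ k).change γ a b z hz.1
        rw [hz.2.2.2] at f5
        exact f5.symm
      · refine ContinuousOn.mul ?_ ?_
        · exact ((C.g_holo a b).continuousOn.mono hsubO).pow m
        · exact (hS _ b).continuousOn.comp ((C.T_holo a b).continuousOn.mono hsubO)
            fun z hz => hz.2.2.1
    exact e2 ⟨hz1, hz2, hz3, rfl⟩
  refine ⟨⟨S, hS, hchange⟩, fun γ a => ?_⟩
  rw [← wn_sq_nrm, wn_sub_comm]
  have h5 : wn (C.V a) (ψ a) (fun z => S γ a z - (σ 0).F γ a z) ≤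
      ENNReal.ofReal (2 * Real.sqrt (A γ) / (1 - q')) := by
    refine wn_le_of_tendsto (isOpen_V C a) (hψc a) (f := fun k z => G k γ a z - (σ 0).F γ a z)
      (fun k => (hG k γ a).continuousOn.sub (hσc 0 γ a))
      (fun z hz => (hSl γ a z hz).sub_const _) ?_
    have h6 : ∀ k, wn (C.V a) (ψ a) (fun z => (σ k).F γ a z - (σ 0).F γ a z) ≤
        ENNReal.ofReal (Real.sqrt (A γ) * (1 - q' ^ k) / (1 - q')) := by
      intro k
      induction k with
      | zero =>
        have : wn (C.V a) (ψ a) (fun z => (σ 0).F γ a z - (σ 0).F γ a z) = 0 := by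
          unfold wn
          simp
        rw [this]
        exact zero_le
      | succ k ih =>
        have e1 : (fun z => (σ (k + 1)).F γ a z - (σ 0).F γ a z) =
            fun z => ((σ (k + 1)).F γ a z - (σ k).F γ a z) +
              ((σ k).F γ a z - (σ 0).F γ a z) := by
          funext z
          ring
        rw [e1]
        refine (wn_add_le (isOpen_V C a) (hψc a) ((hσc (k + 1) γ a).sub (hσc k γ a))
          ((hσc k γ a).sub (hσc 0 γ a))).trans ((add_le_add (k2 k γ a) ih).trans (le_of_eq ?_))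
        have hqk : q' ^ k ≤ 1 := pow_le_one₀ hq'0 hq'1.le
        rw [← ENNReal.ofReal_add (by positivity)
          (div_nonneg (mul_nonneg (Real.sqrt_nonneg _) (by linarith)) hq1.le)]
        congr 1
        field_simp
        ring
    intro k
    have e1 : (fun z => G k γ a z - (σ 0).F γ a z) =
        fun z => (G k γ a z - (σ k).F γ a z) + ((σ k).F γ a z - (σ 0).F γ a z) := by
      funext z
      ring
    rw [e1]
    refine (wn_add_le (isOpen_V C a) (hψc a) ((hG k γ a).continuousOn.sub (hσc k γ a))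
      ((hσc k γ a).sub (hσc 0 γ a))).trans ((add_le_add (k1 k γ a) (h6 k)).trans ?_)
    have hqk : q' ^ k ≤ 1 := pow_le_one₀ hq'0 hq'1.le
    have hqk0 : 0 ≤ q' ^ k := by positivity
    have ha : 0 ≤ Real.sqrt (A γ) := Real.sqrt_nonneg _
    rw [← ENNReal.ofReal_add (by positivity) (div_nonneg (mul_nonneg ha (by linarith)) hq1.le)]
    refine ENNReal.ofReal_le_ofReal ?_
    rw [le_div_iff₀ hq1]
    have e2 : (Real.sqrt (A γ) * q' ^ k + Real.sqrt (A γ) * (1 - q' ^ k) / (1 - q')) * (1 - q') =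
        Real.sqrt (A γ) - Real.sqrt (A γ) * q' ^ k * q' := by
      field_simp
      ring
    rw [e2]
    nlinarith [mul_nonneg (mul_nonneg ha hqk0) hq'0]
  refine (pow_le_pow_left' h5 2).trans (le_of_eq ?_)
  rw [← ENNReal.ofReal_pow (by positivity)]
  congr 1
  calc (2 * Real.sqrt (A γ) / (1 - q')) ^ 2 = (2 / (1 - q')) ^ 2 * Real.sqrt (A γ) ^ 2 := by ring
    _ = (2 / (1 - q')) ^ 2 * A γ := by rw [Real.sq_sqrt (hA γ)]

end Vale.Agent.P284.H894.B2x
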