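import Vale.Agent.P284.H894.B1Glue
import Mathlib.MeasureTheory.Function.Jacobian

/-! # P284 (helper894), B1: pointwise and `L²` estimates for the glued section. -/

open scoped Manifold ContDiff Topology ComplexConjugate ComplexOrder ENNReal
open Filter Set Metric MeasureTheory

noncomputable section

namespace Vale.Agent.P284.H894

open Vale.Agent.P272.K Vale.Agent.P284.H248 Vale.Agent.P272.KOD

variable {n : ℕ} {Γ : Type} [Group Γ]

/-! ### the determinant of a linear map is bounded by its norm -/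

lemma abs_det_le (A : Cm n →L[ℝ] Cm n) : |A.det| ≤ ‖A‖ ^ Module.finrank ℝ (Cm n) := by
  have h0 : (0 : ℝ) < 1 := one_pos
  set μ : Measure (Cm n) := volume
  have h1 : μ (A '' ball (0 : Cm n) 1) = ENNReal.ofReal |A.det| * μ (ball (0 : Cm n) 1) :=
    Measure.addHaar_image_continuousLinearMap μ A _
  have h2 : A '' ball (0 : Cm n) 1 ⊆ closedBall 0 ‖A‖ := by
    rintro _ ⟨x, hx, rfl⟩
    rw [mem_closedBall_zero_iff]
    rw [mem_ball_zero_iff] at hx
    calc ‖A x‖ ≤ ‖A‖ * ‖x‖ := A.le_opNorm x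
      _ ≤ ‖A‖ * 1 := by gcongr
      _ = ‖A‖ := mul_one _
  have h3 : μ (closedBall (0 : Cm n) ‖A‖) =
      ENNReal.ofReal (‖A‖ ^ Module.finrank ℝ (Cm n)) * μ (ball (0 : Cm n) 1) :=
    Measure.addHaar_closedBall μ 0 (norm_nonneg A)
  have h4 : ENNReal.ofReal |A.det| * μ (ball (0 : Cm n) 1) ≤
      ENNReal.ofReal (‖A‖ ^ Module.finrank ℝ (Cm n)) * μ (ball (0 : Cm n) 1) := by
    rw [← h1, ← h3]; exact measure_mono h2
  have h5 : μ (ball (0 : Cm n) 1) ≠ 0 := (measure_ball_pos μ _ h0).ne'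
  have h6 : μ (ball (0 : Cm n) 1) ≠ ⊤ := measure_ball_lt_top.ne
  have h7 := (ENNReal.mul_le_mul_iff_left h5 h6).1 h4
  exact (ENNReal.ofReal_le_ofReal_iff (by positivity)).1 h7

namespace Coc
variable (C : Coc n Γ)

/-- the part of the overlap of the middle balls where `κ = k` -/
def A (a b : C.I) (k : Γ) : Set (Cm n) :=
  {z | z ∈ C.V a ∧ z ∈ C.O a b ∧ C.T a b z ∈ C.V b ∧ C.κ a b z = k}

lemma isOpen_A (a b : C.I) (k : Γ) : IsOpen (C.A a b k) := by
  rw [isOpen_iff_mem_nhds]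
  rintro z ⟨h1, h2, h3, h4⟩
  have h5 : ContinuousAt (C.T a b) z := (C.T_smooth h2).continuousAt
  filter_upwards [(C.isOpen_V a).mem_nhds h1, (C.O_open a b).mem_nhds h2,
    h5 ((C.isOpen_V b).mem_nhds h3), C.κ_loc a b z h2] with z' h6 h7 h8 h9
  exact ⟨h6, h7, h8, h9.trans h4⟩

/-- lower bound for the Jacobian -/
lemma det_ge {a b : C.I} {z : Cm n} (h1 : z ∈ C.V a) (h2 : z ∈ C.O a b)
    (h3 : C.T a b z ∈ C.V b) :
    1 ≤ C.M ^ Module.finrank ℝ (Cm n) * |(fderiv ℝ (C.T a b) z).det| := by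
  have hT : C.T a b z ∈ C.O b a := C.T_mem a b z h2
  have hd1 : DifferentiableAt ℂ (C.T a b) z :=
    (C.T_holo a b).differentiableAt ((C.O_open a b).mem_nhds h2)
  have hd2 : DifferentiableAt ℂ (C.T b a) (C.T a b z) :=
    (C.T_holo b a).differentiableAt ((C.O_open b a).mem_nhds hT)
  have hid : (fun z' => C.T b a (C.T a b z')) =ᶠ[𝓝 z] fun z' => z' := by
    filter_upwards [(C.O_open a b).mem_nhds h2] with z' hz'
    exact C.T_inv hz'
  have h4 : fderiv ℝ (fun z' => C.T b a (C.T a b z')) z = ContinuousLinearMap.id ℝ (Cm n) := by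
    rw [hid.fderiv_eq]; exact fderiv_id
  have h5 : fderiv ℝ (fun z' => C.T b a (C.T a b z')) z =
      (fderiv ℝ (C.T b a) (C.T a b z)).comp (fderiv ℝ (C.T a b) z) :=
    fderiv_comp z (hd2.restrictScalars ℝ) (hd1.restrictScalars ℝ)
  have h6 : (fderiv ℝ (C.T b a) (C.T a b z)).det * (fderiv ℝ (C.T a b) z).det = 1 := by
    have h7 : ((fderiv ℝ (C.T b a) (C.T a b z)).comp (fderiv ℝ (C.T a b) z)).det = 1 := by
      rw [← h5, h4]; simp [ContinuousLinearMap.det]
    rw [← h7]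
    simp [ContinuousLinearMap.det, LinearMap.det_comp]
  have h8 : ‖fderiv ℝ (C.T b a) (C.T a b z)‖ ≤ C.M := by
    rw [hd2.fderiv_restrictScalars ℝ, ContinuousLinearMap.norm_restrictScalars]
    refine C.T_le b a _ hT h3 ?_
    rw [C.T_inv h2]; exact h1
  have h9 : |(fderiv ℝ (C.T b a) (C.T a b z)).det| ≤ C.M ^ Module.finrank ℝ (Cm n) :=
    (abs_det_le _).trans (pow_le_pow_left₀ (norm_nonneg _) h8 _)
  calc (1 : ℝ) = |(fderiv ℝ (C.T b a) (C.T a b z)).det * (fderiv ℝ (C.T a b) z).det| := by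
        rw [h6, abs_one]
    _ = |(fderiv ℝ (C.T b a) (C.T a b z)).det| * |(fderiv ℝ (C.T a b) z).det| := abs_mul _ _
    _ ≤ _ := by gcongr

/-- comparison of integrals on an overlap -/
lemma int_A_le (a b : C.I) (k : Γ) (g : Cm n → ℝ≥0∞) :
    ∫⁻ z in C.A a b k, g (C.T a b z) ≤
      ENNReal.ofReal (C.M ^ Module.finrank ℝ (Cm n)) * ∫⁻ w in C.V b, g w := by
  have hAm := (C.isOpen_A a b k).measurableSet
  set S : Cm n → Cm n := C.T a b with hS
  have hdiff : ∀ z ∈ C.A a b k, HasFDerivWithinAt S (fderiv ℝ S z) (C.A a b k) z := by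
    intro z hz
    have h := (C.T_holo a b).differentiableAt ((C.O_open a b).mem_nhds hz.2.1)
    exact (h.restrictScalars ℝ).hasFDerivAt.hasFDerivWithinAt
  have hinj : InjOn S (C.A a b k) := by
    intro z hz w hw hzw
    have := congrArg (C.T b a) hzw
    rwa [hS, C.T_inv hz.2.1, C.T_inv hw.2.1] at this
  have hsub : S '' C.A a b k ⊆ C.V b := by
    rintro _ ⟨z, hz, rfl⟩
    exact hz.2.2.1
  have h1 : ∫⁻ w in S '' C.A a b k, g w =
      ∫⁻ z in C.A a b k, ENNReal.ofReal |(fderiv ℝ S z).det| * g (S z) :=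
    lintegral_image_eq_lintegral_abs_det_fderiv_mul volume hAm hdiff hinj fun w => g w
  have hM : 0 ≤ C.M := zero_le_one.trans C.M_one
  have h2 : ∫⁻ z in C.A a b k, g (S z) ≤ ENNReal.ofReal (C.M ^ Module.finrank ℝ (Cm n)) *
      ∫⁻ z in C.A a b k, ENNReal.ofReal |(fderiv ℝ S z).det| * g (S z) := by
    rw [← lintegral_const_mul' _ _ ENNReal.ofReal_ne_top]
    refine setLIntegral_mono' hAm fun z hz => ?_
    rw [← mul_assoc, ← ENNReal.ofReal_mul (by positivity)]
    have h6 := C.det_ge hz.1 hz.2.1 hz.2.2.1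
    calc g (S z) = 1 * g (S z) := (one_mul _).symm
      _ ≤ _ := by
        gcongr
        rw [← ENNReal.ofReal_one]
        exact ENNReal.ofReal_le_ofReal h6
  refine h2.trans ?_
  rw [← h1]
  gcongr

end Coc

section
variable {C : Coc n Γ} {m : ℕ}

lemma exp_change (w : Wgt C) {a b : C.I} {z : Cm n} (h : z ∈ C.O a b) :
    ‖C.g a b z ^ m‖ ^ 2 * Real.exp (-(m : ℝ) * w.φ a z) =
      Real.exp (-(m : ℝ) * w.φ b (C.T a b z)) := by
  have hd : 0 < ‖C.g a b z‖ ^ 2 := pow_pos (norm_pos_iff.2 (C.g_ne a b z h)) 2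
  have h1 : Real.exp (-(m : ℝ) * w.φ a z) =
      Real.exp (-(m : ℝ) * w.φ b (C.T a b z)) * ((‖C.g a b z‖ ^ 2) ^ m)⁻¹ := by
    rw [w.change a b z h, mul_add, Real.exp_add]
    congr 1
    rw [neg_mul, Real.exp_neg, ← Real.log_pow, Real.exp_log (pow_pos hd m)]
  have hd' : ‖C.g a b z‖ ^ (2 * m) ≠ 0 := pow_ne_zero _ (norm_ne_zero_iff.2 (C.g_ne a b z h))
  rw [h1, norm_pow, ← pow_mul, ← pow_mul, Nat.mul_comm m 2]
  field_simp

/-- the density of the difference of `G` and `σ` in a piece -/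
def gden (w : Wgt C) (σ : SS C m) (G : Γ → C.I → Cm n → ℂ) (γ : Γ) (b : C.I) (y : Cm n) : ℝ :=
  ‖G γ b y - σ.F γ b y‖ ^ 2 * Real.exp (-(m : ℝ) * w.φ b y)

lemma gden_nonneg (w : Wgt C) (σ : SS C m) (G : Γ → C.I → Cm n → ℂ) (γ : Γ) (b : C.I)
    (y : Cm n) : 0 ≤ gden w σ G γ b y := by
  unfold gden; positivity

lemma gden_eq (w : Wgt C) (σ : SS C m) (G : Γ → C.I → Cm n → ℂ) (γ : Γ) {a b : C.I} {z : Cm n}
    (h : z ∈ C.O a b) :
    ‖C.g a b z ^ m * G (γ * C.κ a b z) b (C.T a b z) - σ.F γ a z‖ ^ 2 *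
      Real.exp (-(m : ℝ) * w.φ a z) = gden w σ G (γ * C.κ a b z) b (C.T a b z) := by
  unfold gden
  rw [σ.change γ a b z h, ← mul_sub, norm_mul, mul_pow, ← exp_change w h]
  ring

open Classical in
/-- the pointwise `L²` bound -/
lemma glF_pt (P : PU C) (w : Wgt C) (σ : SS C m) (G : Γ → C.I → Cm n → ℂ) (γ : Γ) {a : C.I}
    {z : Cm n} (hz : z ∈ C.Ω a) :
    ‖glF m P G γ a z - σ.F γ a z‖ ^ 2 * Real.exp (-(m : ℝ) * w.φ a z) ≤
      ∑ b, if z ∈ P.D a b then gden w σ G (γ * C.κ a b z) b (C.T a b z) else 0 := by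
  have h1 : (∑ b, P.χ b a z) = 1 := P.sum_one a z hz
  rw [glF_sub m G γ hz]
  set s : C.I → ℂ := fun b => C.g a b z ^ m * G (γ * C.κ a b z) b (C.T a b z) - σ.F γ a z
    with hs
  have h2 : ‖∑ b, (P.χ b a z : ℂ) * s b‖ ≤ ∑ b, P.χ b a z * ‖s b‖ := by
    refine (norm_sum_le _ _).trans (Finset.sum_le_sum fun b _ => ?_)
    rw [norm_mul, Complex.norm_real, Real.norm_of_nonneg (P.nonneg b a z)]
  have h3 : ‖∑ b, (P.χ b a z : ℂ) * s b‖ ^ 2 ≤ ∑ b, P.χ b a z * ‖s b‖ ^ 2 :=
    (pow_le_pow_left₀ (norm_nonneg _) h2 2).trans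
      (Real.pow_arith_mean_le_arith_mean_pow Finset.univ (fun b => P.χ b a z) (fun b => ‖s b‖)
        (fun b _ => P.nonneg b a z) h1 (fun b _ => norm_nonneg _) 2)
  refine (mul_le_mul_of_nonneg_right h3 (Real.exp_pos _).le).trans ?_
  rw [Finset.sum_mul]
  refine Finset.sum_le_sum fun b _ => ?_
  split_ifs with h
  · rw [mul_assoc, gden_eq w σ G γ h.1]
    have h4 : P.χ b a z ≤ 1 := by
      rw [← h1]
      exact Finset.single_le_sum (f := fun b => P.χ b a z) (fun i _ => P.nonneg i a z)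
        (Finset.mem_univ b)
    exact mul_le_of_le_one_left (gden_nonneg w σ G _ b _) h4
  · rw [PU.χ_zero hz h]; simp

open Classical in
/-- the pointwise bound of the `∂̄`-derivative -/
lemma dzb_glF_pt (P : PU C) (w : Wgt C) (σ : SS C m) (G : Γ → C.I → Cm n → ℂ)
    (hG : ∀ γ a, DifferentiableOn ℂ (G γ a) (C.V a)) (γ : Γ) {a : C.I}
    {z : Cm n} (hz : z ∈ C.Ω a) {M : ℝ}
    (hM : ∀ b l, ‖dzb l (fun z' => (P.χ b a z' : ℂ)) z‖ ≤ M) :
    (∑ l, ‖dzb l (glF m P G γ a) z‖ ^ 2) * Real.exp (-(m : ℝ) * w.φ a z) ≤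
      ((n : ℝ) * Fintype.card C.I * M ^ 2) *
        ∑ b, if z ∈ P.D a b then gden w σ G (γ * C.κ a b z) b (C.T a b z) else 0 := by
  set s : C.I → ℂ := fun b => C.g a b z ^ m * G (γ * C.κ a b z) b (C.T a b z) - σ.F γ a z
    with hs
  have h0 : ∀ b, z ∉ P.D a b → ∀ l, dzb l (fun z' => (P.χ b a z' : ℂ)) z = 0 := by
    intro b h l
    rw [dzb_congr (g := fun _ => (0 : ℂ)), dzb_const]
    filter_upwards [PU.χ_ev_zero hz h] with z' hz'
    rw [hz']; simp
  have h1 : ∀ l, ‖dzb l (glF m P G γ a) z‖ ^ 2 ≤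
      (Fintype.card C.I : ℝ) * M ^ 2 * ∑ b, if z ∈ P.D a b then ‖s b‖ ^ 2 else 0 := by
    intro l
    rw [dzb_glF hG γ hz (σ.F γ a z) l]
    have h2 : ‖∑ b, dzb l (fun z' => (P.χ b a z' : ℂ)) z * s b‖ ≤
        ∑ b, M * (if z ∈ P.D a b then ‖s b‖ else 0) := by
      refine (norm_sum_le _ _).trans (Finset.sum_le_sum fun b _ => ?_)
      split_ifs with h
      · rw [norm_mul]
        exact mul_le_mul_of_nonneg_right (hM b l) (norm_nonneg _)
      · rw [h0 b h l]; simp
    refine (pow_le_pow_left₀ (norm_nonneg _) h2 2).trans ?_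
    rw [← Finset.mul_sum, mul_pow]
    have h3 := sq_sum_le_card_mul_sum_sq (s := (Finset.univ : Finset C.I))
      (f := fun b => if z ∈ P.D a b then ‖s b‖ else 0)
    rw [Finset.card_univ] at h3
    have h4 : ∀ b, (if z ∈ P.D a b then ‖s b‖ else 0) ^ 2 = if z ∈ P.D a b then ‖s b‖ ^ 2 else 0 := by
      intro b; split_ifs <;> simp
    simp only [h4] at h3
    calc M ^ 2 * (∑ b, if z ∈ P.D a b then ‖s b‖ else 0) ^ 2
        ≤ M ^ 2 * ((Fintype.card C.I : ℝ) * ∑ b, if z ∈ P.D a b then ‖s b‖ ^ 2 else 0) := by gcongr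
      _ = _ := by ring
  have h5 : (∑ l, ‖dzb l (glF m P G γ a) z‖ ^ 2) ≤
      (n : ℝ) * ((Fintype.card C.I : ℝ) * M ^ 2 * ∑ b, if z ∈ P.D a b then ‖s b‖ ^ 2 else 0) := by
    refine (Finset.sum_le_sum fun l _ => h1 l).trans_eq ?_
    rw [Finset.sum_const, Finset.card_univ, Fintype.card_fin, nsmul_eq_mul]
  have h6 : (∑ b, if z ∈ P.D a b then ‖s b‖ ^ 2 else 0) * Real.exp (-(m : ℝ) * w.φ a z) =
      ∑ b, if z ∈ P.D a b then gden w σ G (γ * C.κ a b z) b (C.T a b z) else 0 := by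
    rw [Finset.sum_mul]
    refine Finset.sum_congr rfl fun b _ => ?_
    split_ifs with h
    · exact gden_eq w σ G γ h.1
    · rw [zero_mul]
  refine (mul_le_mul_of_nonneg_right h5 (Real.exp_pos _).le).trans_eq ?_
  rw [← h6]
  ring

/-- bound for the derivatives of the partition functions -/
lemma PU.exists_M (P : PU C) : ∃ M : ℝ, 0 ≤ M ∧ ∀ a b l, ∀ z ∈ C.V a,
    ‖dzb l (fun z => (P.χ b a z : ℂ)) z‖ ≤ M := by
  have h : ∀ (a b : C.I) (l : Fin n), ∃ M : ℝ, ∀ z ∈ closedBall (C.c a) (3 * C.r a),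
      ‖dzb l (fun z => (P.χ b a z : ℂ)) z‖ ≤ M := by
    intro a b l
    refine (isCompact_closedBall _ _).exists_bound_of_continuousOn fun z hz => ?_
    have h1 := χ_smooth_c' (P := P) b (C.cV_sub a hz)
    have h2 : ContinuousAt (fderiv ℝ (fun z => (P.χ b a z : ℂ))) z :=
      (h1.fderiv_right (m := 0) (by simp)).continuousAt
    have h3 : ContinuousAt (dzb l (fun z => (P.χ b a z : ℂ))) z := by
      unfold dzb
      have hv : ∀ v : Cm n, ContinuousAt
          (fun z => fderiv ℝ (fun z => (P.χ b a z : ℂ)) z v) z := fun v =>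
        h2.clm_apply continuousAt_const
      exact ((hv (Pi.single l 1)).add
        (continuousAt_const.mul (hv (Pi.single l Complex.I)))).div_const 2
    exact h3.continuousWithinAt
  choose M hM using h
  refine ⟨∑ a, ∑ b, ∑ l, |M a b l|, by positivity, fun a b l z hz => ?_⟩
  refine (hM a b l z (Metric.ball_subset_closedBall hz)).trans ((le_abs_self _).trans ?_)
  calc |M a b l| ≤ ∑ l, |M a b l| :=
        Finset.single_le_sum (f := fun l => |M a b l|) (fun _ _ => abs_nonneg _)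
          (Finset.mem_univ l)
    _ ≤ ∑ b, ∑ l, |M a b l| :=
        Finset.single_le_sum (f := fun b => ∑ l, |M a b l|)
          (fun _ _ => Finset.sum_nonneg fun _ _ => abs_nonneg _) (Finset.mem_univ b)
    _ ≤ _ := Finset.single_le_sum (f := fun a => ∑ b, ∑ l, |M a b l|)
          (fun _ _ => Finset.sum_nonneg fun _ _ => Finset.sum_nonneg fun _ _ => abs_nonneg _)
          (Finset.mem_univ a)

lemma gden_cont (w : Wgt C) (σ : SS C m) (G : Γ → C.I → Cm n → ℂ)
    (hG : ∀ γ a, DifferentiableOn ℂ (G γ a) (C.V a)) (γ : Γ) (b : C.I) :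
    ContinuousOn (fun y => ENNReal.ofReal (gden w σ G γ b y)) (C.V b) := by
  intro y hy
  have h1 : ContinuousAt (G γ b) y :=
    ((hG γ b).differentiableAt ((C.isOpen_V b).mem_nhds hy)).continuousAt
  have h2 : ContinuousAt (σ.F γ b) y := (σ.smooth γ b y (C.V_sub b hy)).continuousAt
  have h3 : ContinuousAt (w.φ b) y := (w.smooth b y (C.V_sub b hy)).continuousAt
  have h4 : ContinuousAt (fun y => ‖G γ b y - σ.F γ b y‖ ^ 2 *
      Real.exp (-(m : ℝ) * w.φ b y)) y :=
    ((h1.sub h2).norm.pow 2).mul (Real.continuous_exp.continuousAt.comp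
      (continuousAt_const.mul h3))
  exact (ENNReal.continuous_ofReal.continuousAt.comp h4).continuousWithinAt

open Classical in
/-- the integrated form -/
lemma int_le' (P : PU C) (w : Wgt C) (σ : SS C m) (G : Γ → C.I → Cm n → ℂ)
    (hG : ∀ γ a, DifferentiableOn ℂ (G γ a) (C.V a)) (γ : Γ) (a : C.I) :
    ∫⁻ z in C.V a, ENNReal.ofReal (∑ b, if z ∈ P.D a b then
      gden w σ G (γ * C.κ a b z) b (C.T a b z) else 0) ≤
      ∑ b, ∑ k ∈ C.N, ENNReal.ofReal (C.M ^ Module.finrank ℝ (Cm n)) *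
        nrm n m (w.φ b) (C.V b) (fun y => G (γ * k) b y - σ.F (γ * k) b y) := by
  have hcont : ∀ b k, ContinuousOn (fun z => ENNReal.ofReal (gden w σ G (γ * k) b (C.T a b z)))
      (C.A a b k) := by
    intro b k z hz
    have h1 := (gden_cont w σ G hG (γ * k) b).continuousAt ((C.isOpen_V b).mem_nhds hz.2.2.1)
    exact (ContinuousAt.comp (f := C.T a b) h1
      (C.T_smooth hz.2.1).continuousAt).continuousWithinAt
  have hm : ∀ b k, AEMeasurable ((C.A a b k).indicator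
      fun z => ENNReal.ofReal (gden w σ G (γ * k) b (C.T a b z))) volume := fun b k => by
    rw [aemeasurable_indicator_iff (C.isOpen_A a b k).measurableSet]
    exact (hcont b k).aemeasurable (C.isOpen_A a b k).measurableSet
  calc ∫⁻ z in C.V a, ENNReal.ofReal (∑ b, if z ∈ P.D a b then
      gden w σ G (γ * C.κ a b z) b (C.T a b z) else 0)
      ≤ ∫⁻ z in C.V a, ∑ b, ∑ k ∈ C.N, (C.A a b k).indicator
          (fun z => ENNReal.ofReal (gden w σ G (γ * k) b (C.T a b z))) z := by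
        refine setLIntegral_mono' (C.isOpen_V a).measurableSet fun z hz => ?_
        rw [ENNReal.ofReal_sum_of_nonneg fun b _ => by
          split_ifs <;> [exact gden_nonneg w σ G _ b _; exact le_rfl]]
        refine Finset.sum_le_sum fun b _ => ?_
        split_ifs with h
        · have hmem : z ∈ C.A a b (C.κ a b z) := ⟨hz, h.1, PU.D_V h, rfl⟩
          have hk : C.κ a b z ∈ C.N := C.κ_mem a b z h.1 hz (PU.D_V h)
          have h9 := Finset.single_le_sum (s := C.N)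
            (f := fun k => (C.A a b k).indicator
              (fun z => ENNReal.ofReal (gden w σ G (γ * k) b (C.T a b z))) z)
            (fun _ _ => bot_le) hk
          refine le_trans (le_of_eq ?_) h9
          show _ = (C.A a b (C.κ a b z)).indicator _ z
          rw [Set.indicator_of_mem hmem]
        · simp
    _ = ∑ b, ∑ k ∈ C.N, ∫⁻ z in C.V a, (C.A a b k).indicator
          (fun z => ENNReal.ofReal (gden w σ G (γ * k) b (C.T a b z))) z := by
        rw [lintegral_finsetSum' _ fun b _ =>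
          Finset.aemeasurable_fun_sum _ fun k _ => (hm b k).restrict]
        refine Finset.sum_congr rfl fun b _ => ?_
        rw [lintegral_finsetSum' _ fun k _ => (hm b k).restrict]
    _ ≤ _ := by
        refine Finset.sum_le_sum fun b _ => Finset.sum_le_sum fun k _ => ?_
        refine le_trans ?_ ((C.int_A_le a b k
          fun y => ENNReal.ofReal (gden w σ G (γ * k) b y)).trans (le_of_eq ?_))
        · rw [← lintegral_indicator (C.isOpen_A a b k).measurableSet]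
          exact setLIntegral_le_lintegral _ _
        · rfl

/-- The estimates for the glued section. -/
theorem step_glue' (P : PU C) (w : Wgt C) : ∃ B : ℝ, 0 ≤ B ∧ ∀ (m : ℕ) (σ : SS C m)
      (G : Γ → C.I → Cm n → ℂ) (hG : ∀ γ a, DifferentiableOn ℂ (G γ a) (C.V a)) (A : Γ → ℝ),
      (∀ γ, 0 ≤ A γ) →
      (∀ γ a, nrm n m (w.φ a) (C.V a) (fun z => G γ a z - σ.F γ a z) ≤ ENNReal.ofReal (A γ)) →
      (∀ γ a, nrm n m (w.φ a) (C.V a) (fun z => (glSS m P G hG).F γ a z - σ.F γ a z) ≤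
        ENNReal.ofReal (B * ∑ k ∈ C.N, A (γ * k))) ∧
      (∀ γ a, dnrm n m (w.φ a) (C.V a) ((glSS m P G hG).F γ a) ≤
        ENNReal.ofReal (B * ∑ k ∈ C.N, A (γ * k))) := by
  classical
  obtain ⟨M, hM0, hM⟩ := P.exists_M
  set J : ℝ := C.M ^ Module.finrank ℝ (Cm n) with hJ
  have hJ0 : 0 ≤ J := pow_nonneg (zero_le_one.trans C.M_one) _
  set c : ℝ := (Fintype.card C.I : ℝ) with hc
  have hc0 : 0 ≤ c := by positivity
  set B : ℝ := c * J + (n * c * M ^ 2) * (c * J) with hB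
  refine ⟨B, by positivity, fun m σ G hG A hA hn => ?_⟩
  have hint : ∀ γ a, ∫⁻ z in C.V a, ENNReal.ofReal (∑ b, if z ∈ P.D a b then
      gden w σ G (γ * C.κ a b z) b (C.T a b z) else 0) ≤
        ENNReal.ofReal (c * J * ∑ k ∈ C.N, A (γ * k)) := by
    intro γ a
    refine (int_le' P w σ G hG γ a).trans ?_
    calc ∑ b, ∑ k ∈ C.N, ENNReal.ofReal J *
          nrm n m (w.φ b) (C.V b) (fun y => G (γ * k) b y - σ.F (γ * k) b y)
        ≤ ∑ b : C.I, ∑ k ∈ C.N, ENNReal.ofReal J * ENNReal.ofReal (A (γ * k)) := by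
          refine Finset.sum_le_sum fun b _ => Finset.sum_le_sum fun k _ => ?_
          gcongr
          exact hn _ b
      _ = ENNReal.ofReal (c * J * ∑ k ∈ C.N, A (γ * k)) := by
          rw [Finset.sum_const, Finset.card_univ, nsmul_eq_mul, ← Finset.mul_sum,
            ← ENNReal.ofReal_sum_of_nonneg fun k _ => hA _, ← ENNReal.ofReal_mul hJ0,
            ← ENNReal.ofReal_natCast, ← ENNReal.ofReal_mul (by positivity), mul_assoc]
  have hS : ∀ γ, 0 ≤ ∑ k ∈ C.N, A (γ * k) := fun γ => Finset.sum_nonneg fun k _ => hA _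
  constructor
  · intro γ a
    unfold nrm
    refine le_trans (setLIntegral_mono' (C.isOpen_V a).measurableSet fun z hz => ?_)
      ((hint γ a).trans (ENNReal.ofReal_le_ofReal ?_))
    · exact ENNReal.ofReal_le_ofReal (glF_pt P w σ G γ (C.V_sub a hz))
    · rw [hB, add_mul]
      have : 0 ≤ (n * c * M ^ 2) * (c * J) * ∑ k ∈ C.N, A (γ * k) :=
        mul_nonneg (by positivity) (hS γ)
      linarith
  · intro γ a
    unfold dnrm
    calc ∫⁻ z in C.V a, ENNReal.ofReal ((∑ l, ‖dzb l ((glSS m P G hG).F γ a) z‖ ^ 2) *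
          Real.exp (-(m : ℝ) * w.φ a z))
        ≤ ∫⁻ z in C.V a, ENNReal.ofReal (n * c * M ^ 2) *
          ENNReal.ofReal (∑ b, if z ∈ P.D a b then
            gden w σ G (γ * C.κ a b z) b (C.T a b z) else 0) := by
          refine setLIntegral_mono' (C.isOpen_V a).measurableSet fun z hz => ?_
          rw [← ENNReal.ofReal_mul (by positivity)]
          exact ENNReal.ofReal_le_ofReal (dzb_glF_pt P w σ G hG γ (C.V_sub a hz) (M := M)
            (fun b l => hM a b l z hz))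
      _ ≤ ENNReal.ofReal (n * c * M ^ 2) * ENNReal.ofReal (c * J * ∑ k ∈ C.N, A (γ * k)) := by
          rw [lintegral_const_mul' _ _ ENNReal.ofReal_ne_top]
          gcongr
          exact hint γ a
      _ ≤ ENNReal.ofReal (B * ∑ k ∈ C.N, A (γ * k)) := by
          rw [← ENNReal.ofReal_mul (by positivity)]
          refine ENNReal.ofReal_le_ofReal ?_
          rw [hB, add_mul]
          have : 0 ≤ c * J * ∑ k ∈ C.N, A (γ * k) := mul_nonneg (by positivity) (hS γ)
          linarith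

end

end Vale.Agent.P284.H894
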