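import Vale.Agent.P284.H894.Spec2

/-! # P284 (helper894): consequences of the main theorem. -/

open scoped Manifold ContDiff

namespace Vale.Agent.P284.H894

open Vale.Agent.P272.K Vale.Agent.P284.H248

/-- A finite group has an abelian subgroup of finite index. -/
theorem virtuallyAbelian_of_finite (G : Type*) [Group G] [Finite G] : VirtuallyAbelian G := by
  refine ⟨⊥, inferInstance, ?_⟩
  intro a ha b hb
  rw [Subgroup.mem_bot] at ha hb
  rw [ha, hb]

/-- The final form: an infinite fundamental group forces sections of `S^d Ω¹ ⊗ L^w`, `w` fixed,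
`d → ∞`; if the cotangent bundle is not pseudo-effective, the fundamental group is finite. -/
theorem final_cor (h : Main2Stmt) {n : ℕ} {X : Type} [TopologicalSpace X] [T2Space X]
    [CompactSpace X] [ConnectedSpace X] [ChartedSpace (Cm n) X] [IsManifold 𝓘(ℂ, Cm n) ω X]
    (L : LineBundle n X) (hL : Positive L) :
    (∀ x : X, Infinite (FundamentalGroup X x) →
      ∃ w : ℕ, 1 ≤ w ∧ ∀ N : ℕ, ∃ d : ℕ, N ≤ d ∧ ∃ s : SymSec L d w, s.Nonzero) ∧
    (¬ PsefCotangent L → ∀ x : X, Finite (FundamentalGroup X x) ∧
      VirtuallyAbelian (FundamentalGroup X x)) := by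
  refine ⟨fun x hx => h n X L hL x hx, fun hp x => ?_⟩
  have hfin : Finite (FundamentalGroup X x) := by
    by_contra hinf
    rw [not_finite_iff_infinite] at hinf
    exact hp (main_of_main2 h n X L hL x hinf)
  exact ⟨hfin, virtuallyAbelian_of_finite _⟩

end Vale.Agent.P284.H894
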