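import Vale.Agent.P284.H894.SpecSub
import Vale.Agent.P272.K.Inv.Chart

/-! # P284 (helper894), A3: the data `Coc` from the coordinate balls and the cocycle. -/

open scoped Manifold ContDiff Topology ComplexConjugate ComplexOrder
open Filter Set Metric

noncomputable section

namespace Vale.Agent.P284.H894

open Vale.Agent.P272.K Vale.Agent.P284.H248

variable {n : ℕ} {X : Type} [TopologicalSpace X] [ChartedSpace (Cm n) X] {L : LineBundle n X}

namespace Pcs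
variable (P : Pcs L)

lemma target {a : P.I} {z : Cm n} (hz : z ∈ ball (P.c a) (4 * P.r a)) : z ∈ (P.e a).target :=
  P.sub a (ball_subset_closedBall hz)

lemma at' {a : P.I} {z : Cm n} (hz : z ∈ ball (P.c a) (4 * P.r a)) : At (P.e a) ((P.e a).symm z) :=
  At.of_target (P.mem a) (P.target hz)

lemma mem_O {a b : P.I} {z : Cm n} : z ∈ P.O a b ↔ z ∈ ball (P.c a) (4 * P.r a) ∧
    (P.e a).symm z ∈ (P.e b).source ∧ P.T a b z ∈ ball (P.c b) (4 * P.r b) := Iff.rfl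

lemma O_ball {a b : P.I} {z : Cm n} (hz : z ∈ P.O a b) : z ∈ ball (P.c a) (4 * P.r a) := hz.1

lemma at_left {a b : P.I} {z : Cm n} (hz : z ∈ P.O a b) : At (P.e a) ((P.e a).symm z) :=
  P.at' hz.1

lemma at_right {a b : P.I} {z : Cm n} (hz : z ∈ P.O a b) : At (P.e b) ((P.e a).symm z) :=
  ⟨P.mem b, hz.2.1⟩

lemma frame' {a : P.I} {z : Cm n} (hz : z ∈ ball (P.c a) (4 * P.r a)) :
    (P.e a).symm z ∈ L.U (P.f a) := P.frame a z (ball_subset_closedBall hz)

/-- the point of `X` -/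
lemma symm_T {a b : P.I} {z : Cm n} (hz : z ∈ P.O a b) :
    (P.e b).symm (P.T a b z) = (P.e a).symm z := (P.e b).left_inv hz.2.1

lemma T_mem {a b : P.I} {z : Cm n} (hz : z ∈ P.O a b) : P.T a b z ∈ P.O b a := by
  refine ⟨hz.2.2, ?_, ?_⟩
  · rw [P.symm_T hz]; exact (P.at_left hz).2
  · show P.e a ((P.e b).symm (P.T a b z)) ∈ _
    rw [P.symm_T hz, (P.e a).right_inv (P.target hz.1)]
    exact hz.1

lemma T_T {a b d : P.I} {z : Cm n} (hz : z ∈ P.O a b) : P.T b d (P.T a b z) = P.T a d z := by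
  show P.e d ((P.e b).symm (P.T a b z)) = P.e d ((P.e a).symm z)
  rw [P.symm_T hz]

lemma trans_mem {a b d : P.I} {z : Cm n} (hz : z ∈ P.O a b) (h : P.T a b z ∈ P.O b d) :
    z ∈ P.O a d := by
  refine ⟨hz.1, ?_, ?_⟩
  · have := h.2.1
    rwa [P.symm_T hz] at this
  · have := h.2.2
    rwa [P.T_T hz] at this

lemma isOpen_O (a b : P.I) : IsOpen (P.O a b) := by
  have h1 : P.O a b = ball (P.c a) (4 * P.r a) ∩ ((P.e a).target ∩
      (P.e a).symm ⁻¹' ((P.e b).source ∩ (P.e b) ⁻¹' ball (P.c b) (4 * P.r b))) := by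
    ext z
    constructor
    · rintro ⟨h1, h2, h3⟩
      exact ⟨h1, P.target h1, h2, h3⟩
    · rintro ⟨h1, -, h2, h3⟩
      exact ⟨h1, h2, h3⟩
  rw [h1]
  exact isOpen_ball.inter ((P.e a).isOpen_inter_preimage_symm
    ((P.e b).isOpen_inter_preimage isOpen_ball))

lemma O_self (a : P.I) : P.O a a = ball (P.c a) (4 * P.r a) := by
  ext z
  refine ⟨fun h => h.1, fun h => ⟨h, (P.at' h).2, ?_⟩⟩
  show P.e a ((P.e a).symm z) ∈ _
  rw [(P.e a).right_inv (P.target h)]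
  exact h

lemma T_self {a : P.I} {z : Cm n} (hz : z ∈ ball (P.c a) (4 * P.r a)) : P.T a a z = z :=
  (P.e a).right_inv (P.target hz)

lemma cover' {a : P.I} {z : Cm n} (hz : z ∈ ball (P.c a) (4 * P.r a)) :
    ∃ b, z ∈ P.O a b ∧ P.T a b z ∈ ball (P.c b) (P.r b) := by
  obtain ⟨b, h1, h2⟩ := P.cover ((P.e a).symm z)
  exact ⟨b, ⟨hz, h1, ball_subset_ball (by linarith [P.r_pos b]) h2⟩, h2⟩

/-- the compact part of the overlap -/
def cO (a b : P.I) : Set (Cm n) :=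
  closedBall (P.c a) (3 * P.r a) ∩ (P.e a).symm ⁻¹' ((P.e b).symm '' closedBall (P.c b) (3 * P.r b))

lemma closedBall_sub (a : P.I) : closedBall (P.c a) (3 * P.r a) ⊆ ball (P.c a) (4 * P.r a) :=
  closedBall_subset_ball (by linarith [P.r_pos a])

lemma cO_sub (a b : P.I) : P.cO a b ⊆ P.O a b := by
  rintro z ⟨h1, w, hw, hwz⟩
  have hw' := P.closedBall_sub b hw
  refine ⟨P.closedBall_sub a h1, ?_, ?_⟩
  · rw [← hwz]; exact (P.at' hw').2
  · show P.e b ((P.e a).symm z) ∈ _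
    rw [← hwz, (P.e b).right_inv (P.target hw')]
    exact hw'

lemma mem_cO {a b : P.I} {z : Cm n} (hz : z ∈ P.O a b) (h1 : z ∈ ball (P.c a) (3 * P.r a))
    (h2 : P.T a b z ∈ ball (P.c b) (3 * P.r b)) : z ∈ P.cO a b :=
  ⟨ball_subset_closedBall h1, P.T a b z, ball_subset_closedBall h2, P.symm_T hz⟩

lemma isClosed_image [T2Space X] (b : P.I) {K : Set (Cm n)} (hK : IsCompact K)
    (hKs : K ⊆ ball (P.c b) (4 * P.r b)) : IsClosed ((P.e b).symm '' K) :=
  (hK.image_of_continuousOn ((P.e b).continuousOn_symm.mono fun w hw => P.target (hKs hw))).isClosed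

lemma isCompact_cO [T2Space X] (a b : P.I) : IsCompact (P.cO a b) := by
  refine (isCompact_closedBall _ _).of_isClosed_subset ?_ inter_subset_left
  refine ContinuousOn.preimage_isClosed_of_isClosed ?_ isClosed_closedBall
    (P.isClosed_image b (isCompact_closedBall _ _) (P.closedBall_sub b))
  exact (P.e a).continuousOn_symm.mono fun w hw => P.target (P.closedBall_sub a hw)

lemma closed [T2Space X] (a b : P.I) {K : Set (Cm n)} (hK : IsCompact K)
    (hKs : K ⊆ ball (P.c b) (4 * P.r b)) {z : Cm n} (hz : z ∈ ball (P.c a) (4 * P.r a))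
    (h : ¬ (z ∈ P.O a b ∧ P.T a b z ∈ K)) :
    ∀ᶠ z' in 𝓝 z, ¬ (z' ∈ P.O a b ∧ P.T a b z' ∈ K) := by
  have h1 : (P.e a).symm z ∈ ((P.e b).symm '' K)ᶜ := by
    rintro ⟨w, hw, hwz⟩
    refine h ⟨⟨hz, ?_, ?_⟩, ?_⟩
    · rw [← hwz]; exact (P.at' (hKs hw)).2
    · show P.e b ((P.e a).symm z) ∈ _
      rw [← hwz, (P.e b).right_inv (P.target (hKs hw))]
      exact hKs hw
    · show P.e b ((P.e a).symm z) ∈ _
      rw [← hwz, (P.e b).right_inv (P.target (hKs hw))]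
      exact hw
  have h2 : ∀ᶠ z' in 𝓝 z, (P.e a).symm z' ∈ ((P.e b).symm '' K)ᶜ :=
    ((P.e a).continuousAt_symm (P.target hz)).eventually
      ((P.isClosed_image b hK hKs).isOpen_compl.mem_nhds h1)
  filter_upwards [h2] with z' hz' h3
  exact hz' ⟨_, h3.2, P.symm_T h3.1⟩

section
variable [IsManifold 𝓘(ℂ, Cm n) ω X]

lemma T_smooth {a b : P.I} {z : Cm n} (hz : z ∈ P.O a b) : ContDiffAt ℂ ω (P.T a b) z := by
  have := transition (P.at_left hz) (P.at_right hz)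
  rwa [(P.e a).right_inv (P.target hz.1)] at this

omit [IsManifold 𝓘(ℂ, Cm n) ω X] in
lemma g_smooth {a b : P.I} {z : Cm n} (hz : z ∈ P.O a b) : ContDiffAt ℂ ω (P.g a b) z := by
  have h2 : (P.e a).symm z ∈ L.U (P.f b) := by
    have := P.frame' hz.2.2
    rwa [P.symm_T hz] at this
  have := L.holo (P.f a) (P.f b) (P.e a) ((P.e a).symm z) (P.at_left hz) (P.frame' hz.1) h2
  rwa [(P.e a).right_inv (P.target hz.1)] at this

omit [IsManifold 𝓘(ℂ, Cm n) ω X] in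
lemma frame_right {a b : P.I} {z : Cm n} (hz : z ∈ P.O a b) : (P.e a).symm z ∈ L.U (P.f b) := by
  have := P.frame' hz.2.2
  rwa [P.symm_T hz] at this

omit [IsManifold 𝓘(ℂ, Cm n) ω X] in
lemma g_ne {a b : P.I} {z : Cm n} (hz : z ∈ P.O a b) : P.g a b z ≠ 0 :=
  L.ne_zero _ _ _ (P.frame' hz.1) (P.frame_right hz)

omit [IsManifold 𝓘(ℂ, Cm n) ω X] in
lemma g_self {a : P.I} {z : Cm n} (hz : z ∈ ball (P.c a) (4 * P.r a)) : P.g a a z = 1 := by
  have h := P.frame' hz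
  have h1 := L.cocycle (P.f a) (P.f a) (P.f a) _ h h h
  have h2 := L.ne_zero (P.f a) (P.f a) _ h h
  exact mul_left_cancel₀ h2 (by rw [mul_one]; exact h1)

omit [IsManifold 𝓘(ℂ, Cm n) ω X] in
lemma trans_g {a b d : P.I} {z : Cm n} (hz : z ∈ P.O a b) (h : P.T a b z ∈ P.O b d) :
    P.g a d z = P.g a b z * P.g b d (P.T a b z) := by
  show L.g _ _ _ = L.g _ _ _ * L.g _ _ ((P.e b).symm (P.T a b z))
  rw [P.symm_T hz, L.cocycle _ _ _ _ (P.frame' hz.1) (P.frame_right hz)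
    (P.frame_right (P.trans_mem hz h))]

lemma fderiv_cont (a b : P.I) : ContinuousOn (fderiv ℂ (P.T a b)) (P.O a b) := by
  intro z hz
  exact ((P.T_smooth hz).fderiv_right (m := 0) (by simp)).continuousAt.continuousWithinAt

/-- a bound on the overlaps -/
lemma exists_M [T2Space X] : ∃ M : ℝ, 1 ≤ M ∧
    (∀ a b, ∀ z ∈ P.cO a b, ‖P.g a b z‖ ≤ M) ∧ ∀ a b, ∀ z ∈ P.cO a b, ‖fderiv ℂ (P.T a b) z‖ ≤ M := by
  have h1 : ∀ a b, ∃ M : ℝ, ∀ z ∈ P.cO a b, ‖P.g a b z‖ ≤ M := fun a b =>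
    (P.isCompact_cO a b).exists_bound_of_continuousOn fun z hz =>
      (P.g_smooth (P.cO_sub a b hz)).continuousAt.continuousWithinAt
  have h2 : ∀ a b, ∃ M : ℝ, ∀ z ∈ P.cO a b, ‖fderiv ℂ (P.T a b) z‖ ≤ M := fun a b =>
    (P.isCompact_cO a b).exists_bound_of_continuousOn ((P.fderiv_cont a b).mono (P.cO_sub a b))
  choose M₁ hM₁ using h1
  choose M₂ hM₂ using h2
  have hs : ∀ (M : P.I → P.I → ℝ) a b, M a b ≤ ∑ a, ∑ b, |M a b| := fun M a b =>
    (le_abs_self _).trans ((Finset.single_le_sum (f := fun b => |M a b|)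
      (fun _ _ => abs_nonneg _) (Finset.mem_univ b)).trans
      (Finset.single_le_sum (f := fun a => ∑ b, |M a b|)
        (fun _ _ => Finset.sum_nonneg fun _ _ => abs_nonneg _) (Finset.mem_univ a)))
  have hn : ∀ (M : P.I → P.I → ℝ), 0 ≤ ∑ a, ∑ b, |M a b| := fun M => by positivity
  refine ⟨1 + (∑ a, ∑ b, |M₁ a b|) + ∑ a, ∑ b, |M₂ a b|, ?_, fun a b z hz => ?_,
    fun a b z hz => ?_⟩
  · linarith [hn M₁, hn M₂]
  · linarith [hM₁ a b z hz, hs M₁ a b, hn M₂]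
  · linarith [hM₂ a b z hz, hs M₂ a b, hn M₁]

end

/-- a locally constant function takes finitely many values on a compact set -/
lemma finite_values {Γ : Type} {K : Set (Cm n)} (hK : IsCompact K) {κ : Cm n → Γ}
    (h : ∀ z ∈ K, ∀ᶠ z' in 𝓝 z, κ z' = κ z) : (κ '' K).Finite := by
  choose! U hU using fun z (hz : z ∈ K) => eventually_iff_exists_mem.1 (h z hz)
  obtain ⟨t, ht, hKt⟩ := hK.elim_nhds_subcover U fun z hz => (hU z hz).1
  refine (t.finite_toSet.image κ).subset ?_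
  rintro _ ⟨z, hz, rfl⟩
  obtain ⟨i, hi, hzi⟩ := mem_iUnion₂.1 (hKt hz)
  exact ⟨i, hi, ((hU i (ht i hi)).2 z hzi).symm⟩

end Pcs

variable [T2Space X] [IsManifold 𝓘(ℂ, Cm n) ω X]

lemma KD.exists_N {P : Pcs L} {Γ : Type} [Group Γ] (K : KD P Γ) :
    ∃ N : Finset Γ, ∀ a b, ∀ z ∈ P.cO a b, K.κ a b z ∈ N := by
  have h : (⋃ a, ⋃ b, K.κ a b '' P.cO a b).Finite :=
    finite_iUnion fun a => finite_iUnion fun b =>
      Pcs.finite_values (P.isCompact_cO a b) fun z hz => K.loc a b z (P.cO_sub a b hz)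
  refine ⟨h.toFinset, fun a b z hz => ?_⟩
  rw [Finite.mem_toFinset]
  exact mem_iUnion₂.2 ⟨a, b, ⟨z, hz, rfl⟩⟩

/-- the data `Coc` of a covering of `X` -/
def mkCoc (P : Pcs L) {Γ : Type} [Group Γ] (K : KD P Γ) : Coc n Γ where
  I := P.I
  fin := P.fin
  ne := P.ne
  c := P.c
  r := P.r
  r_pos := P.r_pos
  O := P.O
  T := P.T
  g := P.g
  κ := K.κ
  O_open := P.isOpen_O
  O_sub a b z hz := hz.1
  O_self := P.O_self
  T_self a z hz := P.T_self hz.1
  g_self a z hz := P.g_self hz.1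
  κ_self := K.self
  T_mem a b z hz := P.T_mem hz
  trans_mem a b d z hz h := P.trans_mem hz h
  trans_T a b d z hz h := (P.T_T hz).symm
  trans_g a b d z hz h := P.trans_g hz h
  trans_κ := K.trans
  T_holo a b z hz := ((P.T_smooth hz).differentiableAt (by simp)).differentiableWithinAt
  g_holo a b z hz := ((P.g_smooth hz).differentiableAt (by simp)).differentiableWithinAt
  g_ne a b z hz := P.g_ne hz
  κ_loc := K.loc
  cover a z hz := P.cover' hz
  closed a b Q hQ hQs z hz h := P.closed a b hQ hQs hz h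
  N := K.exists_N.choose
  κ_mem a b z hz h1 h2 := K.exists_N.choose_spec a b z (P.mem_cO hz h1 h2)
  M := P.exists_M.choose
  M_one := P.exists_M.choose_spec.1
  g_le a b z hz h1 h2 := P.exists_M.choose_spec.2.1 a b z (P.mem_cO hz h1 h2)
  T_le a b z hz h1 h2 := P.exists_M.choose_spec.2.2 a b z (P.mem_cO hz h1 h2)
  conn := K.conn

/-! ### the remaining parts of block A, frozen -/

/-- **A4**: partition of unity. -/
def A4Stmt : Prop :=
  ∀ (n : ℕ) (X : Type) [TopologicalSpace X] [T2Space X] [CompactSpace X]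
    [ChartedSpace (Cm n) X] [IsManifold 𝓘(ℂ, Cm n) ω X] (L : LineBundle n X) (P : Pcs L)
    (Γ : Type) [Group Γ] (K : KD P Γ), Nonempty (PU (mkCoc P K))

/-- **A5**: weights. -/
def A5Stmt : Prop :=
  ∀ (n : ℕ) (X : Type) [TopologicalSpace X] [T2Space X] [CompactSpace X]
    [ChartedSpace (Cm n) X] [IsManifold 𝓘(ℂ, Cm n) ω X] (L : LineBundle n X) (P : Pcs L)
    (Γ : Type) [Group Γ] (K : KD P Γ), Positive L → Nonempty (Wgt (mkCoc P K))

/-- **A6**: return to `X`. -/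
def A6Stmt : Prop :=
  ∀ (n : ℕ) (X : Type) [TopologicalSpace X] [T2Space X] [CompactSpace X]
    [ChartedSpace (Cm n) X] [IsManifold 𝓘(ℂ, Cm n) ω X] (L : LineBundle n X) (P : Pcs L)
    (Γ : Type) [Group Γ] (K : KD P Γ) (d w : ℕ) (s : XF (mkCoc P K) d w), s.Nonzero →
    ∃ s' : SymSec L d w, s'.Nonzero

/-- Block A from its parts. -/
theorem aStmt_of (h1 : A1Stmt) (h2 : A2Stmt) (h4 : A4Stmt) (h5 : A5Stmt) (h6 : A6Stmt) : AStmt := by
  intro n X _ _ _ _ _ _ L hL x hx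
  obtain ⟨P⟩ := h1 n X L
  obtain ⟨Γ, hΓ, hinf, ⟨K⟩⟩ := h2 n X L P x hx
  exact ⟨Γ, hΓ, mkCoc P K, hinf, h4 n X L P Γ K, h5 n X L P Γ K hL,
    fun d w s hs => h6 n X L P Γ K d w s hs⟩

end Vale.Agent.P284.H894
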