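import Vale.Agent.P284.H894.Spec2
import Vale.Agent.P284.H894.MkCoc
import Vale.Agent.P284.H894.B1
import Vale.Agent.P284.H790.A1
import Vale.Agent.P284.H790.A5
import Vale.Agent.P284.H678.A2
import Vale.Agent.P284.H841.A4
import Vale.Agent.P284.H633.A6
import Vale.Agent.P284.H283.B0
import Vale.Agent.P284.H416.B3
import Vale.Agent.P284.H622.D1p
import Vale.Agent.P284.H5.D0
import Vale.Agent.P284.H639.D3p
import Vale.Agent.P284.H894.B2
import Vale.Agent.P284.H894.Cor

open scoped Manifold ContDiff Topology ComplexConjugate ComplexOrder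
open Filter Set Metric

namespace Vale.Agent.P284.H894

open Vale.Agent.P272.K Vale.Agent.P284.H248

theorem main2 : Main2Stmt :=
  main2_of
    (aStmt_of H790.a1Stmt H678.a2Stmt a4 H790.a5Stmt H633.a6)
    (H416.b3Stmt H283.b0 b1Stmt B2x.b2)
    (H639.d3' H5.d0Stmt H622.d1'Stmt)

end Vale.Agent.P284.H894
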