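import Vale.Agent.P284.H248.Defs
import Mathlib.AlgebraicTopology.FundamentalGroupoid.FundamentalGroup

/-!
# P284 (helper894): positive line bundles and the cotangent bundle

Definitions used in the statement of `Results/P284/PsefCotangent.lean`: positive line bundles,
holomorphic sections of `S^d Ω¹_X ⊗ L^w`, pseudo-effectivity of `Ω¹_X`. (`cHess φ z` is the complex
Hessian `∂²φ / ∂z_j ∂z̄_k` at `z`; conventions of `Vale.Agent.P272.K`.)
-/

open scoped Manifold ContDiff Topology ComplexConjugate ComplexOrder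
open Filter Set Metric

noncomputable section

namespace Vale.Agent.P284.H894

open Vale.Agent.P272.K Vale.Agent.P284.H248

/-! ### The final statement -/

section
variable {n : ℕ} {X : Type} [TopologicalSpace X] [ChartedSpace (Cm n) X]

/-- `ψ i` are the weights of a smooth Hermitian metric of `L`: `‖t_i‖² = exp (-ψ i)` for the frame
`t_i` of `L` over `U i`. Its curvature form is `i∂∂̄ (ψ i)`. -/
structure IsMetric (L : LineBundle n X) (ψ : L.ι → X → ℝ) : Prop where
  smooth : ∀ i (e : Chart n X) x, At e x → x ∈ L.U i →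
    ContDiffAt ℝ ∞ (fun z => ψ i (e.symm z)) (e x)
  change : ∀ i j x, x ∈ L.U i → x ∈ L.U j → ψ i x = ψ j x + Real.log (‖L.g i j x‖ ^ 2)

/-- `L` is positive: it has a smooth Hermitian metric with positive curvature. -/
def Positive (L : LineBundle n X) : Prop :=
  ∃ ψ : L.ι → X → ℝ, IsMetric L ψ ∧ ∀ i (e : Chart n X) x, At e x → x ∈ L.U i →
    (cHess (fun z => ψ i (e.symm z)) (e x)).PosDef

/-- A holomorphic section of `S^d Ω¹_X ⊗ L^w`, where `Ω¹_X` is the cotangent bundle: over `U i` it is
`f i • t_i^w`, and in the chart `e` the value of `f i` at the point `z` is the homogeneous polynomial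
`v ↦ f i e z v` of degree `d` on the tangent space `ℂⁿ` (a holomorphic function `P` of `v` with
`P (t v) = t^d P v`), depending holomorphically on `z`. -/
structure SymSec (L : LineBundle n X) (d w : ℕ) where
  f : L.ι → Chart n X → Cm n → Cm n → ℂ
  holo : ∀ i (e : Chart n X) x (v : Cm n), At e x → x ∈ L.U i →
    ContDiffAt ℂ ω (fun p : Cm n × Cm n => f i e p.1 p.2) (e x, v)
  homog : ∀ i (e : Chart n X) x, At e x → x ∈ L.U i → ∀ (t : ℂ) (v : Cm n),
    f i e (e x) (t • v) = t ^ d * f i e (e x) v
  change : ∀ i (e e' : Chart n X) x, At e x → At e' x → x ∈ L.U i → ∀ v : Cm n,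
    f i e (e x) v = f i e' (e' x) (fderiv ℂ (fun z => e' (e.symm z)) (e x) v)
  glue : ∀ i j (e : Chart n X) x, At e x → x ∈ L.U i → x ∈ L.U j → ∀ v : Cm n,
    f i e (e x) v = L.g i j x ^ w * f j e (e x) v

/-- The section is not zero. -/
def SymSec.Nonzero {L : LineBundle n X} {d w : ℕ} (s : SymSec L d w) : Prop :=
  ∃ i e x v, At e x ∧ x ∈ L.U i ∧ s.f i e (e x) v ≠ 0

/-- The cotangent bundle is pseudo-effective (with respect to the positive line bundle `L`): for every
`N` there are `w ≥ 1` and `d ≥ N w` such that `S^d Ω¹_X ⊗ L^w` has a nonzero holomorphic section. -/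
def PsefCotangent (L : LineBundle n X) : Prop :=
  ∀ N : ℕ, ∃ d w : ℕ, 1 ≤ w ∧ N * w ≤ d ∧ ∃ s : SymSec L d w, s.Nonzero

end

end Vale.Agent.P284.H894
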