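import Vale.Agent.P284.H894.PsefDefs
import Vale.Agent.P284.H248.Defs
import Vale.Agent.P272.KOD.Defs
import Mathlib.AlgebraicTopology.FundamentalGroupoid.FundamentalGroup
import Mathlib.Analysis.Calculus.IteratedDeriv.Defs
import Mathlib.Topology.Algebra.InfiniteSum.Real

/-!
# P284 (helper894): an infinite fundamental group forces a pseudo-effective cotangent bundle

`X` compact connected complex manifold, `L` a positive line bundle, `π₁(X)` infinite. Then for every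
`N` there are `k ≥ 1`, `m ≥ N k` and a nonzero holomorphic section of `S^m Ω¹_X ⊗ L^k`.

FROZEN definitions and statements of the blocks.
-/

open scoped Manifold ContDiff Topology ComplexConjugate ComplexOrder
open Filter Set Metric

noncomputable section

namespace Vale.Agent.P284.H894

open Vale.Agent.P272.K Vale.Agent.P284.H248

/-- The theorem. -/
def MainStmt : Prop :=
  ∀ (n : ℕ) (X : Type) [TopologicalSpace X] [T2Space X] [CompactSpace X] [ConnectedSpace X]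
    [ChartedSpace (Cm n) X] [IsManifold 𝓘(ℂ, Cm n) ω X] (L : LineBundle n X), Positive L →
    ∀ x : X, Infinite (FundamentalGroup X x) → PsefCotangent L

/-! ### Combinatorial and analytic data of the covering -/

/-- Finitely many coordinate balls `Ω a ⊃ V a ⊃ W a` (radii `4 r`, `3 r`, `r`) of a manifold `X`, lifted
to a connected covering space `D → X` with group `Γ`: the pieces of `D` are indexed by `Γ × I`.
`O a b` is the set of the points of `Ω a` which lie in the ball `Ω b`, `T a b` the change of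
coordinates, `g a b` the transition function of a line bundle, `κ a b z ∈ Γ` the locally constant
function with: the point `z` of the piece `(γ, a)` is the point `T a b z` of `(γ * κ a b z, b)`. -/
structure Coc (n : ℕ) (Γ : Type) [Group Γ] where
  I : Type
  fin : Fintype I
  ne : Nonempty I
  c : I → Cm n
  r : I → ℝ
  r_pos : ∀ a, 0 < r a
  O : I → I → Set (Cm n)
  T : I → I → Cm n → Cm n
  g : I → I → Cm n → ℂ
  κ : I → I → Cm n → Γ
  O_open : ∀ a b, IsOpen (O a b)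
  O_sub : ∀ a b, O a b ⊆ ball (c a) (4 * r a)
  O_self : ∀ a, O a a = ball (c a) (4 * r a)
  T_self : ∀ a, ∀ z ∈ O a a, T a a z = z
  g_self : ∀ a, ∀ z ∈ O a a, g a a z = 1
  κ_self : ∀ a, ∀ z ∈ O a a, κ a a z = 1
  T_mem : ∀ a b, ∀ z ∈ O a b, T a b z ∈ O b a
  trans_mem : ∀ a b d, ∀ z ∈ O a b, T a b z ∈ O b d → z ∈ O a d
  trans_T : ∀ a b d, ∀ z ∈ O a b, T a b z ∈ O b d → T a d z = T b d (T a b z)
  trans_g : ∀ a b d, ∀ z ∈ O a b, T a b z ∈ O b d → g a d z = g a b z * g b d (T a b z)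
  trans_κ : ∀ a b d, ∀ z ∈ O a b, T a b z ∈ O b d → κ a d z = κ a b z * κ b d (T a b z)
  T_holo : ∀ a b, DifferentiableOn ℂ (T a b) (O a b)
  g_holo : ∀ a b, DifferentiableOn ℂ (g a b) (O a b)
  g_ne : ∀ a b, ∀ z ∈ O a b, g a b z ≠ 0
  κ_loc : ∀ a b, ∀ z ∈ O a b, ∀ᶠ z' in 𝓝 z, κ a b z' = κ a b z
  /-- the small balls cover -/
  cover : ∀ a, ∀ z ∈ ball (c a) (4 * r a), ∃ b, z ∈ O a b ∧ T a b z ∈ ball (c b) (r b)
  /-- Hausdorff property -/
  closed : ∀ a b (K : Set (Cm n)), IsCompact K → K ⊆ ball (c b) (4 * r b) →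
    ∀ z ∈ ball (c a) (4 * r a), ¬ (z ∈ O a b ∧ T a b z ∈ K) →
    ∀ᶠ z' in 𝓝 z, ¬ (z' ∈ O a b ∧ T a b z' ∈ K)
  /-- the neighbours of `1` in `Γ` -/
  N : Finset Γ
  κ_mem : ∀ a b z, z ∈ O a b → z ∈ ball (c a) (3 * r a) → T a b z ∈ ball (c b) (3 * r b) →
    κ a b z ∈ N
  /-- bounds on the overlaps -/
  M : ℝ
  M_one : 1 ≤ M
  g_le : ∀ a b z, z ∈ O a b → z ∈ ball (c a) (3 * r a) → T a b z ∈ ball (c b) (3 * r b) →
    ‖g a b z‖ ≤ M
  T_le : ∀ a b z, z ∈ O a b → z ∈ ball (c a) (3 * r a) → T a b z ∈ ball (c b) (3 * r b) →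
    ‖fderiv ℂ (T a b) z‖ ≤ M
  /-- the covering space is connected -/
  conn : ∀ P : Γ → I → Prop,
    (∀ γ a b z, z ∈ O a b → z ∈ ball (c a) (3 * r a) → T a b z ∈ ball (c b) (3 * r b) →
      P γ a → P (γ * κ a b z) b) → ∀ γ a γ' b, P γ a → P γ' b

section
variable {n : ℕ} {Γ : Type} [Group Γ]

attribute [instance] Coc.fin Coc.ne

/-- the big ball number `a` -/
def Coc.Ω (C : Coc n Γ) (a : C.I) : Set (Cm n) := ball (C.c a) (4 * C.r a)
/-- the middle ball number `a` -/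
def Coc.V (C : Coc n Γ) (a : C.I) : Set (Cm n) := ball (C.c a) (3 * C.r a)
/-- the small ball number `a` -/
def Coc.W (C : Coc n Γ) (a : C.I) : Set (Cm n) := ball (C.c a) (C.r a)

/-- Smooth partition of unity: `χ b a z` is the value of the function number `b` at the point `z` of
the ball `Ω a`. -/
structure PU (C : Coc n Γ) where
  χ : C.I → C.I → Cm n → ℝ
  smooth : ∀ b a, ∀ z ∈ C.Ω a, ContDiffAt ℝ ∞ (χ b a) z
  nonneg : ∀ b a z, 0 ≤ χ b a z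
  sum_one : ∀ a, ∀ z ∈ C.Ω a, ∑ b, χ b a z = 1
  K : C.I → Set (Cm n)
  compactK : ∀ b, IsCompact (K b)
  K_sub : ∀ b, K b ⊆ C.V b
  supp : ∀ b a, ∀ z ∈ C.Ω a, χ b a z ≠ 0 → z ∈ C.O a b ∧ C.T a b z ∈ K b
  compat : ∀ b a d, ∀ z ∈ C.O a d, χ b a z = χ b d (C.T a d z)

/-- Weights of a metric of positive curvature of the line bundle. -/
structure Wgt (C : Coc n Γ) where
  φ : C.I → Cm n → ℝ
  smooth : ∀ a, ∀ z ∈ C.Ω a, ContDiffAt ℝ ∞ (φ a) z
  change : ∀ a b, ∀ z ∈ C.O a b, φ a z = φ b (C.T a b z) + Real.log (‖C.g a b z‖ ^ 2)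
  lam : ℝ
  lam_pos : 0 < lam
  pos : ∀ a, ∀ z ∈ closedBall (C.c a) (3 * C.r a), ∀ β : Cm n,
    lam * ∑ j, ‖β j‖ ^ 2 ≤ (∑ j, ∑ k, cHess (φ a) z j k * β j * conj (β k)).re

/-- A holomorphic section over the covering of the `m`-th power of the line bundle. -/
structure HS (C : Coc n Γ) (m : ℕ) where
  F : Γ → C.I → Cm n → ℂ
  holo : ∀ γ a, DifferentiableOn ℂ (F γ a) (C.V a)
  change : ∀ γ a b z, z ∈ C.O a b → z ∈ C.V a → C.T a b z ∈ C.V b →
    F γ a z = C.g a b z ^ m * F (γ * C.κ a b z) b (C.T a b z)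

/-- A smooth section over the covering of the `m`-th power of the line bundle. -/
structure SS (C : Coc n Γ) (m : ℕ) where
  F : Γ → C.I → Cm n → ℂ
  smooth : ∀ γ a, ∀ z ∈ C.Ω a, ContDiffAt ℝ ∞ (F γ a) z
  change : ∀ γ a b, ∀ z ∈ C.O a b,
    F γ a z = C.g a b z ^ m * F (γ * C.κ a b z) b (C.T a b z)

/-- The section is bounded by a summable function of the piece. -/
def HS.Small {C : Coc n Γ} {m : ℕ} (s : HS C m) (ρ : Γ → ℝ) : Prop :=
  Summable ρ ∧ ∀ γ a z, z ∈ C.V a → ‖s.F γ a z‖ ≤ ρ γ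

/-- At some point the value in the piece `1` dominates the values at the other points of the orbit. -/
def HS.Peaked {C : Coc n Γ} {m : ℕ} (s : HS C m) : Prop :=
  ∃ a, ∃ z ∈ C.V a, s.F 1 a z ≠ 0 ∧ Summable (fun γ : Γ => ‖s.F γ a z‖) ∧
    ∑' γ : Γ, ‖s.F γ a z‖ ≤ (4 / 3) * ‖s.F 1 a z‖

/-- A holomorphic family, over the pieces of the covering, of homogeneous polynomials of degree `q` on
the tangent spaces, with values in the `w`-th power of the line bundle. -/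
structure TF (C : Coc n Γ) (q w : ℕ) where
  τ : Γ → C.I → Cm n → Cm n → ℂ
  holo : ∀ γ a, DifferentiableOn ℂ (fun p : Cm n × Cm n => τ γ a p.1 p.2) (C.V a ×ˢ univ)
  homog : ∀ γ a, ∀ z ∈ C.V a, ∀ (t : ℂ) (v : Cm n), τ γ a z (t • v) = t ^ q * τ γ a z v
  change : ∀ γ a b z, z ∈ C.O a b → z ∈ C.V a → C.T a b z ∈ C.V b → ∀ v : Cm n,
    τ γ a z v = C.g a b z ^ w * τ (γ * C.κ a b z) b (C.T a b z) (fderiv ℂ (C.T a b) z v)

/-- The same over the pieces of the base: a section of `S^q Ω¹ ⊗ L^w`. -/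
structure XF (C : Coc n Γ) (q w : ℕ) where
  θ : C.I → Cm n → Cm n → ℂ
  holo : ∀ a, DifferentiableOn ℂ (fun p : Cm n × Cm n => θ a p.1 p.2) (C.V a ×ˢ univ)
  homog : ∀ a, ∀ z ∈ C.V a, ∀ (t : ℂ) (v : Cm n), θ a z (t • v) = t ^ q * θ a z v
  change : ∀ a b z, z ∈ C.O a b → z ∈ C.V a → C.T a b z ∈ C.V b → ∀ v : Cm n,
    θ a z v = C.g a b z ^ w * θ b (C.T a b z) (fderiv ℂ (C.T a b) z v)

/-- It is not zero. -/
def XF.Nonzero {C : Coc n Γ} {q w : ℕ} (s : XF C q w) : Prop :=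
  ∃ a, ∃ z ∈ C.V a, ∃ v, s.θ a z v ≠ 0

/-- square summable and not zero -/
def TF.Good {C : Coc n Γ} {q w : ℕ} (s : TF C q w) : Prop :=
  (∃ ρ : Γ → ℝ, (∀ γ, 0 ≤ ρ γ) ∧ Summable (fun γ => ρ γ ^ 2) ∧
    ∀ γ a, ∀ z ∈ C.V a, ∀ v : Cm n, ‖s.τ γ a z v‖ ≤ ρ γ * ‖v‖ ^ q) ∧
  ∃ γ a, ∃ z ∈ C.V a, ∃ v, s.τ γ a z v ≠ 0

end

/-! ### Statements of the blocks -/

/-- **A**: the data of the universal covering, and the return to `X`. -/
def AStmt : Prop :=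
  ∀ (n : ℕ) (X : Type) [TopologicalSpace X] [T2Space X] [CompactSpace X] [ConnectedSpace X]
    [ChartedSpace (Cm n) X] [IsManifold 𝓘(ℂ, Cm n) ω X] (L : LineBundle n X), Positive L →
    ∀ x : X, Infinite (FundamentalGroup X x) →
    ∃ (Γ : Type) (_ : Group Γ) (C : Coc n Γ), Infinite Γ ∧ Nonempty (PU C) ∧ Nonempty (Wgt C) ∧
      ∀ (d w : ℕ) (s : XF C d w), s.Nonzero → ∃ s' : SymSec L d w, s'.Nonzero

/-- **B**: sections on the covering. -/
def BStmt : Prop :=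
  ∀ (n : ℕ) (Γ : Type) [Group Γ] (C : Coc n Γ), PU C → Wgt C →
    ∃ m : ℕ, 1 ≤ m ∧ ∃ (s : HS C m) (ρ : Γ → ℝ), s.Small ρ ∧ s.Peaked

/-- **C**: a `Γ`-equivariant operator from `ℓ²(Γ)^S` to `ℓ²(Γ)^K`, `|S| > |K|`, has a kernel. -/
def CStmt : Prop :=
  ∀ (Γ K : Type) [Group Γ] [Infinite Γ] [Fintype K] (t : Γ → K → Γ → ℂ),
    (∀ g k, Summable fun u => ‖t g k u‖) →
    ∃ (S : Finset Γ) (c : Γ → Γ → ℂ), (∀ h g, g ∉ S → c h g = 0) ∧ (∃ h g, c h g ≠ 0) ∧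
      (Summable fun h => ∑ g ∈ S, ‖c h g‖ ^ 2) ∧
      ∀ (k : K) (γ : Γ), ∑' h, ∑ g ∈ S, c h g * t g k (h⁻¹ * γ) = 0

/-- **D**: the leading term along the diagonal. -/
def DStmt : Prop :=
  ∀ (n : ℕ) (Γ : Type) [Group Γ] [Infinite Γ] (C : Coc n Γ) (m : ℕ) (s : HS C m) (ρ : Γ → ℝ),
    s.Small ρ → s.Peaked → ∀ N : ℕ, ∃ q : ℕ, N ≤ q ∧ ∃ τ : TF C q (2 * m), τ.Good

/-- **E**: Poincaré series. -/
def EStmt : Prop :=
  ∀ (n : ℕ) (Γ : Type) [Group Γ] (C : Coc n Γ) (q w : ℕ) (τ : TF C q w), τ.Good →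
    ∃ (k : ℕ) (s : XF C (q * k) (w * k)), 1 ≤ k ∧ s.Nonzero

/-- The assembly. -/
theorem main_of (hA : AStmt) (hB : BStmt) (hD : DStmt) (hE : EStmt) : MainStmt := by
  intro n X _ _ _ _ _ _ L hL x hx N
  obtain ⟨Γ, _, C, hΓ, ⟨P⟩, ⟨w⟩, hret⟩ := hA n X L hL x hx
  obtain ⟨m, hm, s, ρ, hs, hp⟩ := hB n Γ C P w
  obtain ⟨q, hq, τ, hτ⟩ := hD n Γ C m s ρ hs hp (N * (2 * m))
  obtain ⟨k, θ, hk, hθ⟩ := hE n Γ C q (2 * m) τ hτ
  refine ⟨q * k, 2 * m * k, ?_, ?_, hret _ _ θ hθ⟩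
  · exact Nat.mul_pos (by omega) hk
  · rw [← mul_assoc]
    exact Nat.mul_le_mul_right k hq

end Vale.Agent.P284.H894
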