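import Vale.Agent.P284.H894.Spec
import Mathlib.Analysis.Complex.CauchyIntegral

/-! # P284 (helper894): FROZEN statements of the sub-blocks. -/

open scoped Manifold ContDiff Topology ComplexConjugate ComplexOrder
open Filter Set Metric Asymptotics

noncomputable section

namespace Vale.Agent.P284.H894

open Vale.Agent.P272.K Vale.Agent.P284.H248 Vale.Agent.P272.KOD

/-! ## Block A -/

section
variable {n : ℕ} {X : Type} [TopologicalSpace X] [ChartedSpace (Cm n) X]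

/-- Finitely many coordinate balls with frames of `L`; the small balls cover `X`. -/
structure Pcs (L : LineBundle n X) where
  I : Type
  fin : Fintype I
  ne : Nonempty I
  e : I → Chart n X
  mem : ∀ a, e a ∈ atlas (Cm n) X
  f : I → L.ι
  c : I → Cm n
  r : I → ℝ
  r_pos : ∀ a, 0 < r a
  sub : ∀ a, closedBall (c a) (4 * r a) ⊆ (e a).target
  frame : ∀ a, ∀ z ∈ closedBall (c a) (4 * r a), (e a).symm z ∈ L.U (f a)
  cover : ∀ x, ∃ a, x ∈ (e a).source ∧ e a x ∈ ball (c a) (r a)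

attribute [instance] Pcs.fin Pcs.ne

/-- the change of coordinates -/
def Pcs.T {L : LineBundle n X} (P : Pcs L) (a b : P.I) (z : Cm n) : Cm n :=
  P.e b ((P.e a).symm z)

/-- the overlap -/
def Pcs.O {L : LineBundle n X} (P : Pcs L) (a b : P.I) : Set (Cm n) :=
  {z | z ∈ ball (P.c a) (4 * P.r a) ∧ (P.e a).symm z ∈ (P.e b).source ∧
    P.T a b z ∈ ball (P.c b) (4 * P.r b)}

/-- the transition function -/
def Pcs.g {L : LineBundle n X} (P : Pcs L) (a b : P.I) (z : Cm n) : ℂ :=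
  L.g (P.f a) (P.f b) ((P.e a).symm z)

end

/-- **A1**: existence of the balls. -/
def A1Stmt : Prop :=
  ∀ (n : ℕ) (X : Type) [TopologicalSpace X] [T2Space X] [CompactSpace X] [Nonempty X]
    [ChartedSpace (Cm n) X] [IsManifold 𝓘(ℂ, Cm n) ω X] (L : LineBundle n X), Nonempty (Pcs L)

/-- The locally constant cocycle with values in `Γ` of a connected covering of `X` with group `Γ`. -/
structure KD {n : ℕ} {X : Type} [TopologicalSpace X] [ChartedSpace (Cm n) X]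
    {L : LineBundle n X} (P : Pcs L) (Γ : Type) [Group Γ] where
  κ : P.I → P.I → Cm n → Γ
  self : ∀ a, ∀ z ∈ P.O a a, κ a a z = 1
  trans : ∀ a b d, ∀ z ∈ P.O a b, P.T a b z ∈ P.O b d → κ a d z = κ a b z * κ b d (P.T a b z)
  loc : ∀ a b, ∀ z ∈ P.O a b, ∀ᶠ z' in 𝓝 z, κ a b z' = κ a b z
  conn : ∀ Q : Γ → P.I → Prop,
    (∀ γ a b z, z ∈ P.O a b → z ∈ ball (P.c a) (3 * P.r a) →
      P.T a b z ∈ ball (P.c b) (3 * P.r b) → Q γ a → Q (γ * κ a b z) b) →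
    ∀ γ a γ' b, Q γ a → Q γ' b

/-- **A2**: the cocycle of the universal covering. -/
def A2Stmt : Prop :=
  ∀ (n : ℕ) (X : Type) [TopologicalSpace X] [T2Space X] [CompactSpace X] [ConnectedSpace X]
    [ChartedSpace (Cm n) X] [IsManifold 𝓘(ℂ, Cm n) ω X] (L : LineBundle n X) (P : Pcs L) (x : X),
    Infinite (FundamentalGroup X x) →
    ∃ (Γ : Type) (_ : Group Γ), Infinite Γ ∧ Nonempty (KD P Γ)

/-! ## Block B (norms `nrm`, `dnrm` of `Vale.Agent.P272.KOD.Defs`) -/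

/-- **B0**: summable weights on a group. -/
def B0Stmt : Prop :=
  ∀ (Γ : Type) [Group Γ] (N : Finset Γ), ∃ (a : Γ → ℝ) (K : ℝ), Summable a ∧ (∀ γ, 0 ≤ a γ) ∧
    1 ≤ a 1 ∧ 1 ≤ K ∧ ∀ γ, ∀ k ∈ N, a (γ * k) ≤ K * a γ

/-- **B1**: one step: local solutions of `∂̄` (`KOD.Loc`), glued by the partition of unity
(port of `KOD.Glue`, `KOD.StepA`, `KOD.Cmp`, `KOD.Step`). -/
def B1Stmt : Prop :=
  ∀ (n : ℕ) (Γ : Type) [Group Γ] (C : Coc n Γ) (_ : PU C) (w : Wgt C), ∃ B : ℝ, 0 ≤ B ∧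
    ∀ m : ℕ, 1 ≤ m → ∀ (σ : SS C m) (A : Γ → ℝ), (∀ γ, 0 ≤ A γ) →
      (∀ γ a, dnrm n m (w.φ a) (C.V a) (σ.F γ a) ≤ ENNReal.ofReal (A γ)) →
      ∃ (G : Γ → C.I → Cm n → ℂ) (τ : SS C m), (∀ γ a, DifferentiableOn ℂ (G γ a) (C.V a)) ∧
        (∀ γ a, nrm n m (w.φ a) (C.V a) (fun z => G γ a z - σ.F γ a z) ≤
          ENNReal.ofReal (B / m * A γ)) ∧
        (∀ γ a, nrm n m (w.φ a) (C.V a) (fun z => τ.F γ a z - σ.F γ a z) ≤
          ENNReal.ofReal (B / m * ∑ k ∈ C.N, A (γ * k))) ∧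
        (∀ γ a, dnrm n m (w.φ a) (C.V a) (τ.F γ a) ≤
          ENNReal.ofReal (B / m * ∑ k ∈ C.N, A (γ * k)))

/-- **B2**: the limit of the iteration (port of `KOD.Lim`). -/
def B2Stmt : Prop :=
  ∀ (n : ℕ) (Γ : Type) [Group Γ] (C : Coc n Γ) (w : Wgt C) (m : ℕ) (σ : ℕ → SS C m)
    (G : ℕ → Γ → C.I → Cm n → ℂ), (∀ k γ a, DifferentiableOn ℂ (G k γ a) (C.V a)) →
    ∀ (A : Γ → ℝ) (q : ℝ), (∀ γ, 0 ≤ A γ) → 0 ≤ q → q < 1 →
    (∀ k γ a, nrm n m (w.φ a) (C.V a) (fun z => G k γ a z - (σ k).F γ a z) ≤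
      ENNReal.ofReal (A γ * q ^ k)) →
    (∀ k γ a, nrm n m (w.φ a) (C.V a) (fun z => (σ (k + 1)).F γ a z - (σ k).F γ a z) ≤
      ENNReal.ofReal (A γ * q ^ k)) →
    ∃ s : HS C m, ∀ γ a, nrm n m (w.φ a) (C.V a) (fun z => (σ 0).F γ a z - s.F γ a z) ≤
      ENNReal.ofReal ((2 / (1 - Real.sqrt q)) ^ 2 * A γ)

/-- **B3**: from the previous ones: iteration, peak function at the centre of a ball (`KOD.PeakA`,
`KOD.PeakB`: `exists_NF`, `NF.eventually_small`), sup bounds. -/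
def B3Stmt : Prop := B0Stmt → B1Stmt → B2Stmt → BStmt

/-! ## Block D -/

/-- `f` vanishes to order `q` along the diagonal of `V`. -/
def Van {n : ℕ} (q : ℕ) (V : Set (Cm n)) (f : Cm n → Cm n → ℂ) : Prop :=
  ∀ z ∈ V, ∀ v : Cm n, (fun t : ℂ => f z (z + t • v)) =O[𝓝 0] fun t : ℂ => t ^ q

/-- the leading term of order `q` of `f` along the diagonal, a homogeneous polynomial in `v`. -/
def Lead {n : ℕ} (q : ℕ) (f : Cm n → Cm n → ℂ) (z v : Cm n) : ℂ :=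
  limUnder (𝓝[≠] (0 : ℂ)) fun t : ℂ => f z (z + t • v) / t ^ q

/-- **D0**: calculus of the leading term. `f` is holomorphic on `V × V`, `V` open. -/
structure D0Stmt : Prop where
  tendsto : ∀ {n q : ℕ} {V : Set (Cm n)} {f : Cm n → Cm n → ℂ}, IsOpen V →
    DifferentiableOn ℂ (fun p : Cm n × Cm n => f p.1 p.2) (V ×ˢ V) → Van q V f →
    ∀ z ∈ V, ∀ v : Cm n, Tendsto (fun t : ℂ => f z (z + t • v) / t ^ q) (𝓝[≠] 0) (𝓝 (Lead q f z v))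
  holo : ∀ {n q : ℕ} {V : Set (Cm n)} {f : Cm n → Cm n → ℂ}, IsOpen V →
    DifferentiableOn ℂ (fun p : Cm n × Cm n => f p.1 p.2) (V ×ˢ V) → Van q V f →
    DifferentiableOn ℂ (fun p : Cm n × Cm n => Lead q f p.1 p.2) (V ×ˢ univ)
  homog : ∀ {n q : ℕ} {V : Set (Cm n)} {f : Cm n → Cm n → ℂ}, IsOpen V →
    DifferentiableOn ℂ (fun p : Cm n × Cm n => f p.1 p.2) (V ×ˢ V) → Van q V f →
    ∀ z ∈ V, ∀ (t : ℂ) (v : Cm n), Lead q f z (t • v) = t ^ q * Lead q f z v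
  bound : ∀ {n q : ℕ} {V : Set (Cm n)} {f : Cm n → Cm n → ℂ}, IsOpen V →
    DifferentiableOn ℂ (fun p : Cm n × Cm n => f p.1 p.2) (V ×ˢ V) → Van q V f →
    ∀ (z : Cm n) (ε B : ℝ), 0 < ε → ball z ε ⊆ V → (∀ w ∈ ball z ε, ‖f z w‖ ≤ B) →
    ∀ v : Cm n, ‖Lead q f z v‖ ≤ B / ε ^ q * ‖v‖ ^ q
  succ : ∀ {n q : ℕ} {V : Set (Cm n)} {f : Cm n → Cm n → ℂ}, IsOpen V →
    DifferentiableOn ℂ (fun p : Cm n × Cm n => f p.1 p.2) (V ×ˢ V) → Van q V f →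
    (∀ z ∈ V, ∀ v, Lead q f z v = 0) → Van (q + 1) V f
  coef : ∀ {n q : ℕ} {V : Set (Cm n)} {f : Cm n → Cm n → ℂ}, IsOpen V →
    DifferentiableOn ℂ (fun p : Cm n × Cm n => f p.1 p.2) (V ×ˢ V) → Van q V f →
    ∀ z ∈ V, ∀ v : Cm n,
      iteratedDeriv q (fun t : ℂ => f z (z + t • v)) 0 = (q.factorial : ℂ) * Lead q f z v
  change : ∀ {n q : ℕ} {V V' : Set (Cm n)} {f f' : Cm n → Cm n → ℂ}, IsOpen V → IsOpen V' →
    DifferentiableOn ℂ (fun p : Cm n × Cm n => f p.1 p.2) (V ×ˢ V) → Van q V f →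
    DifferentiableOn ℂ (fun p : Cm n × Cm n => f' p.1 p.2) (V' ×ˢ V') → Van q V' f' →
    ∀ (T : Cm n → Cm n) (G : Cm n → ℂ), ∀ z ∈ V, T z ∈ V' → DifferentiableAt ℂ T z →
    ContinuousAt G z → (∀ᶠ w in 𝓝 z, f z w = G z * G w * f' (T z) (T w)) →
    ∀ v : Cm n, Lead q f z v = G z ^ 2 * Lead q f' (T z) (fderiv ℂ T z v)
  zero : ∀ {n : ℕ} {c : Cm n} {r : ℝ} {f : Cm n → Cm n → ℂ},
    DifferentiableOn ℂ (fun p : Cm n × Cm n => f p.1 p.2) (ball c r ×ˢ ball c r) →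
    (∀ q, Van q (ball c r) f) → ∀ z ∈ ball c r, ∀ w ∈ ball c r, f z w = 0

/-- **D1**: the section `Σ c(h,g) (h s) ⊗ (h g s)` on the product of the covering with itself. -/
def D1Stmt : Prop :=
  ∀ (n : ℕ) (Γ : Type) [Group Γ] (C : Coc n Γ) (m : ℕ) (s : HS C m) (ρ : Γ → ℝ),
    s.Small ρ → s.Peaked → ∀ (S : Finset Γ) (c : Γ → Γ → ℂ), (∀ h g, g ∉ S → c h g = 0) →
    (∃ h g, c h g ≠ 0) → (Summable fun h => ∑ g ∈ S, ‖c h g‖ ^ 2) →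
    ∃ σ : Γ → C.I → Γ → C.I → Cm n → Cm n → ℂ,
      (∀ γ a γ' b, DifferentiableOn ℂ (fun p : Cm n × Cm n => σ γ a γ' b p.1 p.2)
        (C.V a ×ˢ C.V b)) ∧
      (∀ γ a d γ' b z w, z ∈ C.O a d → z ∈ C.V a → C.T a d z ∈ C.V d → w ∈ C.V b →
        σ γ a γ' b z w = C.g a d z ^ m * σ (γ * C.κ a d z) d γ' b (C.T a d z) w) ∧
      (∀ γ a γ' b d z w, w ∈ C.O b d → w ∈ C.V b → C.T b d w ∈ C.V d → z ∈ C.V a →
        σ γ a γ' b z w = C.g b d w ^ m * σ γ a (γ' * C.κ b d w) d z (C.T b d w)) ∧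
      (∃ γ a γ' b, ∃ z ∈ C.V a, ∃ w ∈ C.V b, σ γ a γ' b z w ≠ 0) ∧
      (∃ R : Γ → ℝ, (∀ γ, 0 ≤ R γ) ∧ Summable (fun γ => R γ ^ 2) ∧
        ∀ γ a, ∀ z ∈ C.V a, ∀ w ∈ C.V a, ‖σ γ a γ a z w‖ ≤ R γ) ∧
      (∀ γ a k, ∀ z ∈ C.V a, ∀ v : Cm n,
        iteratedDeriv k (fun t : ℂ => σ γ a γ a z (z + t • v)) 0 =
          ∑' h, ∑ g ∈ S, c h g * (s.F (h⁻¹ * γ) a z *
            iteratedDeriv k (fun t : ℂ => s.F (g⁻¹ * (h⁻¹ * γ)) a (z + t • v)) 0))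

/-- **D2**: summability of the Taylor coefficients. -/
def D2Stmt : Prop :=
  ∀ (n : ℕ) (Γ : Type) [Group Γ] (C : Coc n Γ) (m : ℕ) (s : HS C m) (ρ : Γ → ℝ), s.Small ρ →
    ∀ (a : C.I) (k : ℕ) (g : Γ), ∀ z ∈ C.V a, ∀ v : Cm n,
      Summable fun u : Γ =>
        ‖s.F u a z * iteratedDeriv k (fun t : ℂ => s.F (g⁻¹ * u) a (z + t • v)) 0‖

/-- **D3**: assembly: finite nets, contraction, connectedness. -/
def D3Stmt : Prop := CStmt → D0Stmt → D1Stmt → D2Stmt → DStmt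

/-! ## Block E -/

/-- **E0**: power sums of a square summable family. -/
def E0Stmt : Prop :=
  ∀ (Γ : Type) (c : Γ → ℂ), (Summable fun γ => ‖c γ‖ ^ 2) → (∃ γ, c γ ≠ 0) →
    ∃ k : ℕ, 2 ≤ k ∧ ∑' γ, c γ ^ k ≠ 0

/-- **E1** -/
def E1Stmt : Prop := E0Stmt → EStmt

end Vale.Agent.P284.H894
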